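import Crest.Agent.X212.Orx52.Prod
import Crest.Agent.X212.Cyl58.Jn
import Crest.Agent.X212.Cyl58.HB
import Crest.Agent.X212.Ori83.Fill

/-!
# X212 / Orx52 (helper52): orientation preserving maps; timed pieces, joins, caps

* `Pos J I f s a o` : `f : (N, a) → (M, o)` preserves the orientations on `s`; calculus;
* `exists_ori_cover`, `exists_ori_pd₂` : gluing over an open cover;
* `TPos k o o'` for `k : TIso M M' J`, `tpos_junc`, `jn_ori`, `capd_ori`; `pos_of_posD`.
-/

set_option autoImplicit false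
set_option linter.unusedSectionVars false
set_option linter.style.haveILetI false

open Set Filter Topology Function Module Metric
open scoped ContDiff Manifold
open Crest.Agent.R208 Crest.Agent.R208.F Crest.Agent.R208.FI Crest.Agent.X212.Dr59 Crest.Agent.X212.Int54
open Crest.Agent.X212.Glue52 Crest.Agent.X212.Ext52 Crest.GeometryTopology.DehnSurgery

noncomputable section

namespace Crest.Agent.X212.Orx52

section gen

variable {E : Type*} [NormedAddCommGroup E] [NormedSpace ℝ E] [FiniteDimensional ℝ E]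
  {H : Type*} [TopologicalSpace H] {I : ModelWithCorners ℝ E H} [I.Boundaryless]
  {M : Type*} [TopologicalSpace M] [ChartedSpace H M] [IsManifold I ∞ M]
  {E' : Type*} [NormedAddCommGroup E'] [NormedSpace ℝ E'] [FiniteDimensional ℝ E']
  {H' : Type*} [TopologicalSpace H'] {J : ModelWithCorners ℝ E' H'} [J.Boundaryless]
  {N : Type*} [TopologicalSpace N] [ChartedSpace H' N] [IsManifold J ∞ N]
  {F : Type*} [NormedAddCommGroup F] [NormedSpace ℝ F] [FiniteDimensional ℝ F]
  {G : Type*} [TopologicalSpace G] {K : ModelWithCorners ℝ F G} [K.Boundaryless]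
  {P : Type*} [TopologicalSpace P] [ChartedSpace G P] [IsManifold K ∞ P]
  {F' : Type*} [NormedAddCommGroup F'] [NormedSpace ℝ F'] [FiniteDimensional ℝ F']
  {G' : Type*} [TopologicalSpace G'] {L : ModelWithCorners ℝ F' G'} [L.Boundaryless]
  {Q : Type*} [TopologicalSpace Q] [ChartedSpace G' Q] [IsManifold L ∞ Q]

variable (I) in
/-- an orientation form on a subset -/
def OriOn (s : Set M) (o : M → Ext E) : Prop := ∀ x ∈ s, SmAt I o x ∧ tp E (o x) ≠ 0

theorem oriOn {o : M → Ext E} (h : Ori I o) (s : Set M) : OriOn I s o := fun x _ => ⟨h.sm x, h.ne x⟩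

theorem OriOn.ori {o : M → Ext E} (h : OriOn I univ o) : Ori I o :=
  ⟨fun x => (h x trivial).1, fun x => (h x trivial).2⟩

theorem OriOn.mono {o : M → Ext E} {s t : Set M} (h : OriOn I s o) (ht : t ⊆ s) : OriOn I t o :=
  fun x hx => h x (ht hx)

theorem OriOn.neg {o : M → Ext E} {s : Set M} (h : OriOn I s o) : OriOn I s (-o) :=
  fun x hx => ⟨(h x hx).1.neg, by simpa using (h x hx).2⟩

theorem OriOn.pm {o : M → Ext E} {s : Set M} (h : OriOn I s o) {f : N → M} {t : Set N}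
    (hf : ∀ y ∈ t, IsLocalDiffeomorphAt J I ∞ f y) (ht : MapsTo f t s) : OriOn J t (pm J I f o) :=
  fun y hy => ⟨(h _ (ht hy)).1.pm (hf y hy).contMDiffAt, tp_ld_ne (hf y hy) (h _ (ht hy)).2⟩

theorem OriOn.pr {o : M → Ext E} {s : Set M} (h : OriOn I s o) {a : N → Ext E'} {t : Set N}
    (h' : OriOn J t a) : OriOn (I.prod J) (s ×ˢ t) (pr o a) :=
  fun _ hz => ⟨cAt_pr le_rfl (h _ hz.1).1 (h' _ hz.2).1, tp_pr_ne (h _ hz.1).2 (h' _ hz.2).2⟩

theorem OriOn.same {o : M → Ext E} {s : Set M} (h : OriOn I s o) : SameOn o o s :=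
  fun x hx => mul_self_pos.2 (h x hx).2

/-- `f : (N, a) → (M, o)` preserves the orientations on `s` -/
def Pos (J : ModelWithCorners ℝ E' H') (I : ModelWithCorners ℝ E H) (f : N → M) (s : Set N)
    (a : N → Ext E') (o : M → Ext E) : Prop := SameOn (pm J I f o) a s

variable {f f' : N → M} {g : P → N} {s s' : Set N} {t : Set P} {o o' : M → Ext E} {a a' : N → Ext E'}
  {b : P → Ext F}

theorem Pos.mono (h : Pos J I f s a o) (hs : s' ⊆ s) : Pos J I f s' a o := fun x hx => h x (hs hx)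

theorem Pos.union (h : Pos J I f s a o) (h' : Pos J I f s' a o) : Pos J I f (s ∪ s') a o :=
  fun x hx => hx.elim (h x) (h' x)

theorem pos_id {s : Set M} : Pos I I id s o o' ↔ SameOn o' o s := by rw [Pos, pm_id]

theorem Pos.congr' (h : Pos J I f s a o) (e : ∀ x ∈ s, f' =ᶠ[𝓝 x] f) : Pos J I f' s a o :=
  fun x hx => by rw [pm_congr (e x hx) rfl]; exact h x hx

theorem Pos.congr (h : Pos J I f s a o) (hs : IsOpen s) (e : EqOn f' f s) : Pos J I f' s a o :=
  h.congr' fun _ hx => eventually_of_mem (hs.mem_nhds hx) e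

theorem Pos.neg (h : Pos J I f s a o) : Pos J I f s (-a) (-o) := by
  rw [Pos, pm_neg]
  exact same_neg h

theorem pos_neg_left : Pos J I f s (-a) o ↔ Pos J I f s a (-o) :=
  ⟨fun h => neg_neg a ▸ h.neg, fun h => neg_neg o ▸ h.neg⟩

theorem Pos.left (h : Pos J I f s a o) (h' : SameOn a a' s) : Pos J I f s a' o := same_trans h h'

theorem Pos.right (h : Pos J I f s a o) (hf : ∀ y ∈ s, IsLocalDiffeomorphAt J I ∞ f y) {u : Set M}
    (hu : MapsTo f s u) (h' : SameOn o' o u) : Pos J I f s a o' := same_trans (same_pm h' hf hu) h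

theorem pm_comp_ld {z : P} (hf : IsLocalDiffeomorphAt J I ∞ f (g z))
    (hg : IsLocalDiffeomorphAt K J ∞ g z) : pm K I (f ∘ g) o z = pm K J g (pm J I f o) z :=
  (pm_comp (hf.mdifferentiableAt ne0) (hg.mdifferentiableAt ne0)).symm

theorem Pos.comp (h : Pos J I f s a o) (h' : Pos K J g t b a)
    (hf : ∀ y ∈ s, IsLocalDiffeomorphAt J I ∞ f y) (hg : ∀ z ∈ t, IsLocalDiffeomorphAt K J ∞ g z)
    (ht : MapsTo g t s) : Pos K I (f ∘ g) t b o := fun z hz => by
  rw [pm_comp_ld (hf _ (ht hz)) (hg z hz)]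
  exact same_trans (same_pm h hg ht) h' z hz

/-- two out of three: the second map -/
theorem Pos.of_comp (h : Pos K I (f ∘ g) t b o) (h' : Pos K J g t b a)
    (hf : ∀ z ∈ t, IsLocalDiffeomorphAt J I ∞ f (g z)) (hg : ∀ z ∈ t, IsLocalDiffeomorphAt K J ∞ g z) :
    Pos J I f (g '' t) a o :=
  same_of_pm hg fun z hz => by
    rw [← pm_comp_ld (hf z hz) (hg z hz)]
    exact same_trans h (same_symm h') z hz

/-- two out of three: the first map -/
theorem Pos.of_comp_left (h : Pos K I (f ∘ g) t b o) (h' : Pos J I f s a o)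
    (hf : ∀ y ∈ s, IsLocalDiffeomorphAt J I ∞ f y) (hg : ∀ z ∈ t, IsLocalDiffeomorphAt K J ∞ g z)
    (ht : MapsTo g t s) : Pos K J g t b a := fun z hz => by
  have := h z hz
  rw [pm_comp_ld (hf _ (ht hz)) (hg z hz)] at this
  exact pos_trans (same_symm (same_pm h' hg ht) z hz) this

/-- two orientations for which the same map is positive agree on the image -/
theorem Pos.same (h : Pos J I f s a o) (h' : Pos J I f s a o')
    (hf : ∀ y ∈ s, IsLocalDiffeomorphAt J I ∞ f y) : SameOn o o' (f '' s) :=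
  same_of_pm hf (same_trans h (same_symm h'))

theorem Pos.prodMap {k : P → Q} {c : Q → Ext F'} (h : Pos J I f s a o) (h' : Pos K L k t b c)
    (hf : ∀ y ∈ s, IsLocalDiffeomorphAt J I ∞ f y) (hk : ∀ z ∈ t, IsLocalDiffeomorphAt K L ∞ k z) :
    Pos (J.prod K) (I.prod L) (Prod.map f k) (s ×ˢ t) (pr a b) (pr o c) := fun z hz => by
  rw [pm_prodMap ((hf _ hz.1).mdifferentiableAt ne0) ((hk _ hz.2).mdifferentiableAt ne0)]
  exact same_pr h h' z hz

theorem same_closure {u D : Set M} (ho : OriOn I u o) (ho' : OriOn I u o') (hD : u ⊆ closure D)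
    (h : SameOn o o' D) : SameOn o o' u := fun x hx =>
  pos_of_frequently (ho x hx).1 (ho x hx).2 (ho' x hx).1 (ho' x hx).2
    ((mem_closure_iff_frequently.1 (hD hx)).mono h)

/-- positivity is tested on a dense subset -/
theorem Pos.closure {u : Set M} (h : Pos J I f s' a o) (hs : s ⊆ closure s') (ha : OriOn J s a)
    (ho : OriOn I u o) (hf : ∀ y ∈ s, IsLocalDiffeomorphAt J I ∞ f y) (hu : MapsTo f s u) :
    Pos J I f s a o := same_closure (ho.pm hf hu) ha hs h

/-- the same inside an open set -/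
theorem Pos.dense {u : Set M} {D : Set N} (hD : Dense D) (hs : IsOpen s) (h : Pos J I f (s ∩ D) a o)
    (ha : OriOn J s a) (ho : OriOn I u o) (hf : ∀ y ∈ s, IsLocalDiffeomorphAt J I ∞ f y)
    (hu : MapsTo f s u) : Pos J I f s a o := h.closure (hD.open_subset_closure_inter hs) ha ho hf hu

/-- on a connected set a local diffeomorphism is positive or negative -/
theorem pos_or {u : Set M} (hs : IsPreconnected s) (ha : OriOn J s a) (ho : OriOn I u o)
    (hf : ∀ y ∈ s, IsLocalDiffeomorphAt J I ∞ f y) (hu : MapsTo f s u) :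
    Pos J I f s a o ∨ Pos J I f s a (-o) :=
  (same_or (ho.pm hf hu) ha hs).imp_right fun h => by rwa [Pos, pm_neg]

theorem pos_of_pt {u : Set M} (hs : IsPreconnected s) (ha : OriOn J s a) (ho : OriOn I u o)
    (hf : ∀ y ∈ s, IsLocalDiffeomorphAt J I ∞ f y) (hu : MapsTo f s u) {y : N} (hy : y ∈ s)
    (h : Pos J I f {y} a o) : Pos J I f s a o := same_of_pt (ho.pm hf hu) ha hs hy (h y rfl)

theorem Pos.not_neg (h : Pos J I f s a o) (h' : Pos J I f s a (-o)) : s = ∅ :=
  eq_empty_of_forall_notMem fun x hx => lt_asymm (h x hx) (by simpa [pm_neg] using h' x hx)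

theorem pos_of_eq (ha : OriOn J s a) {c : N → ℝ} (hc : ∀ y ∈ s, 0 < c y)
    (h : ∀ y ∈ s, pm J I f o y = c y • a y) : Pos J I f s a o := fun y hy => by
  rw [h y hy, map_smul, smul_eq_mul, mul_assoc]
  exact mul_pos (hc y hy) (ha.same y hy)

theorem pos_pm {u : Set M} (ho : OriOn I u o) (hf : ∀ y ∈ s, IsLocalDiffeomorphAt J I ∞ f y)
    (hu : MapsTo f s u) : Pos J I f s (pm J I f o) o := (ho.pm hf hu).same

/-! ### partial diffeomorphisms -/

variable (φ : PartialDiffeomorph J I N M ∞)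

theorem ldp {y : N} (hy : y ∈ φ.source) : IsLocalDiffeomorphAt J I ∞ φ y :=
  φ.isLocalDiffeomorphAt _ _ _ hy

theorem symm_comp {y : N} (hy : y ∈ φ.source) : φ.symm ∘ φ =ᶠ[𝓝 y] id :=
  eventually_of_mem (φ.open_source.mem_nhds hy) fun _ hz => φ.left_inv hz

theorem OriOn.push (ha : OriOn J s a) (hs : s ⊆ φ.source) : OriOn I (φ '' s) (Dr59.pm I J φ.symm a) := by
  rintro _ ⟨y, hy, rfl⟩
  exact push_ok (ldp φ (hs hy)) (symm_comp φ (hs hy)) (ha y hy)

theorem pos_push (ha : OriOn J s a) (hs : s ⊆ φ.source) : Pos J I φ s a (pm I J φ.symm a) :=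
  fun y hy => by
    rw [pm_pm_inv (ldp φ (hs hy)) (symm_comp φ (hs hy))]
    exact ha.same y hy

variable {φ} in
theorem Pos.symm (h : Pos J I φ s a o) (hs : s ⊆ φ.source) : Pos I J φ.symm (φ '' s) o a := by
  refine same_of_pm (J := J) (fun y hy => ldp φ (hs hy)) fun y hy => ?_
  rw [pm_pm_inv (ldp φ (hs hy)) (symm_comp φ (hs hy))]
  exact same_symm h y hy

/-- GLUING over an open cover -/
theorem exists_ori_cover [T2Space M] [SigmaCompactSpace M] {ι : Type*} {U : ι → Set M}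
    (hU : ∀ i, IsOpen (U i)) (hc : ∀ x, ∃ i, x ∈ U i) {c : ι → M → Ext E} (h1 : ∀ i, OriOn I (U i) (c i))
    (h2 : ∀ i j, SameOn (c i) (c j) (U i ∩ U j)) :
    ∃ O, Ori I O ∧ Dg (finrank ℝ E) univ O ∧ ∀ i, SameOn O (c i) (U i) := by
  choose i hi using hc
  obtain ⟨O, k1, k2, k3⟩ := exists_ori_univ (I := I) (ρ := fun x => tp E (c (i x) x)) fun x =>
    ⟨c (i x), eventually_of_mem ((hU _).mem_nhds (hi x)) fun y hy =>
      ⟨(h1 _ y hy).1, (h1 _ y hy).2, fun _ => h2 _ _ y ⟨hy, hi y⟩⟩⟩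
  exact ⟨O, k1, k2, fun j x hx => pos_trans (k3 x) (h2 _ _ x ⟨hi x, hx⟩)⟩

/-- GLUING of two partial charts whose transition map is positive -/
theorem exists_ori_pd₂ [T2Space M] [SigmaCompactSpace M] (ψ : PartialDiffeomorph K I P M ∞)
    (hc : ∀ x, x ∈ φ.target ∨ x ∈ ψ.target) (ha : OriOn J φ.source a) (hb : OriOn K ψ.source b)
    (h : Pos J K (ψ.symm ∘ φ) (φ.source ∩ φ ⁻¹' ψ.target) a b) :
    ∃ O, Ori I O ∧ Dg (finrank ℝ E) univ O ∧ Pos J I φ φ.source a O ∧ Pos K I ψ ψ.source b O := by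
  have h1 := ha.push φ subset_rfl
  have h2 := hb.push ψ subset_rfl
  rw [PartialEquiv.image_source_eq_target] at h1 h2
  have h3 : SameOn (pm I K ψ.symm b) (pm I J φ.symm a) (φ.target ∩ ψ.target) := by
    have := Pos.same (f := φ) (o := pm I K ψ.symm b) (fun y hy => by
      rw [← pm_comp_ld (ldp ψ.symm hy.2) (ldp φ hy.1)]
      exact h y hy) (pos_push φ (ha.mono inter_subset_left) inter_subset_left) fun y hy => ldp φ hy.1
    exact fun x hx => this x ⟨φ.symm x, ⟨φ.map_target hx.1,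
      (φ.right_inv hx.1).symm.subst (motive := fun y => y ∈ ψ.target) hx.2⟩, φ.right_inv hx.1⟩
  obtain ⟨O, k1, k2, k3⟩ := exists_ori_cover (I := I) (ι := Bool) (U := fun i => cond i φ.target ψ.target)
    (c := fun i => cond i (pm I J φ.symm a) (pm I K ψ.symm b))
    (fun i => by cases i; exacts [ψ.open_target, φ.open_target])
    (fun x => (hc x).elim (fun h => ⟨true, h⟩) fun h => ⟨false, h⟩)
    (fun i => by cases i; exacts [h2, h1]) fun i j => by
      cases i <;> cases j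
      exacts [(h2.mono inter_subset_left).same, inter_comm φ.target _ ▸ h3, same_symm h3,
        (h1.mono inter_subset_left).same]
  exact ⟨O, k1, k2, (pos_push φ ha subset_rfl).right (fun _ => ldp φ) φ.mapsTo (k3 true),
    (pos_push ψ hb subset_rfl).right (fun _ => ldp ψ) ψ.mapsTo (k3 false)⟩

theorem sigmaCompact (I : ModelWithCorners ℝ E H) (M : Type*) [TopologicalSpace M] [ChartedSpace H M]
    [SecondCountableTopology M] : SigmaCompactSpace M :=
  haveI : LocallyCompactSpace M := Manifold.locallyCompact_of_finiteDimensional I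
  inferInstance

end gen

/-- `PosD` for the canonical orientations -/
theorem pos_of_posD {t : Tube} {σ σ' : FillingData} {g : Fill t σ → Fill t σ'}
    (h : Ori83.PosD t σ σ' g) : Pos (𝓡 3) (𝓡 3) g univ (oF t σ) (oF t σ') :=
  h.ori (ori_oF t σ) (ori_oF t σ') (oF_same t σ σ')

/-! ### timed pieces -/

open Cyl58

variable {V V' V'' W : Type} [NormedAddCommGroup V] [NormedSpace ℝ V] [FiniteDimensional ℝ V]
  [NormedAddCommGroup V'] [NormedSpace ℝ V'] [FiniteDimensional ℝ V']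
  [NormedAddCommGroup V''] [NormedSpace ℝ V''] [FiniteDimensional ℝ V'']
  [NormedAddCommGroup W] [NormedSpace ℝ W] [FiniteDimensional ℝ W]

instance Pc.fd (P : Pc V) : FiniteDimensional ℝ P.E := P.L.symm.toLinearEquiv.finiteDimensional

section TP

variable {M : TP V} {M' : TP V'} {M'' : TP V''} {J J' : Set ℝ} {o : M.P.M → Ext M.P.E}
  {o' : M'.P.M → Ext M'.P.E} {o'' : M''.P.M → Ext M''.P.E}

/-- an orientation preserving isomorphism of timed pieces -/
def TPos (k : TIso M M' J) (o : M.P.M → Ext M.P.E) (o' : M'.P.M → Ext M'.P.E) : Prop :=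
  Pos M.P.I M'.P.I k (M.τ ⁻¹' J) o o'

theorem TPos.symm {k : TIso M M' J} (h : TPos k o o') : TPos k.symm o' o := by
  have := Pos.symm h k.src.ge
  rwa [k.image_preimage subset_rfl] at this

theorem TPos.trans {k : TIso M M' J} {k' : TIso M' M'' J} (h : TPos k o o') (h' : TPos k' o' o'') :
    TPos (k.trans k') o o'' :=
  Pos.comp (f := k') (g := k) h' h (fun _ => k'.ld) (fun _ => k.ld) fun _ => k.mem

theorem TPos.restr {k : TIso M M' J} (h : TPos k o o') (hJ : IsOpen J') (h' : J' ⊆ J) :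
    TPos (k.restr hJ h') o o' := Pos.mono h (preimage_mono h')

theorem TPos.cast {k : TIso M M' J} (h : TPos k o o') (e : J = J') : TPos (k.cast e) o o' :=
  Pos.mono h (preimage_mono e.ge)

theorem tpos_refl (hJ : IsOpen J) (ho : Ori M.P.I o) : TPos (TIso.refl M hJ) o o :=
  pos_id.2 (oriOn ho _).same

theorem TPos.shift {k : TIso M M' J} (h : TPos k o o') (d : ℝ) : TPos (k.shift d) o o' :=
  Pos.mono h fun x hx => show M.τ x ∈ J from add_sub_cancel_right (M.τ x) d ▸ hx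

theorem TPos.rev {k : TIso M M' J} (h : TPos k o o') : TPos k.rev o o' :=
  Pos.mono h fun x hx => show M.τ x ∈ J from neg_neg (M.τ x) ▸ hx

theorem TPos.re {k : TIso M M' J} (h : TPos k o o') (l : ℝ ≃ₜ ℝ) : TPos (k.re l) o o' :=
  Pos.mono h fun x hx => show M.τ x ∈ J from l.symm_apply_apply (M.τ x) ▸ hx

/-- positivity is local in time -/
theorem tpos_of_loc {k : TIso M M' J} (h : ∀ t ∈ J, ∃ J', IsOpen J' ∧ t ∈ J' ∧ ∃ k' : TIso M M' J',
    TPos k' o o' ∧ ∀ x, M.τ x ∈ J' → k x = k' x) : TPos k o o' := fun x hx => by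
  obtain ⟨J', h1, h2, k', h3, h4⟩ := h _ hx
  exact Pos.congr h3 (h1.preimage M.cont) h4 x h2

variable {Y Y' : Pc W} [CompactSpace Y.M] [T2Space Y.M] [SecondCountableTopology Y.M] [Nonempty Y.M]
  [CompactSpace Y'.M] [T2Space Y'.M] [SecondCountableTopology Y'.M] [Nonempty Y'.M]
  {a : Y.M → Ext Y.E} {a' : Y'.M → Ext Y'.E}

theorem tpos_cylIso {f : Y.M ≃ₘ^∞⟮Y.I, Y'.I⟯ Y'.M} (hJ : IsOpen J) (h : Pos Y.I Y'.I f univ a a') :
    TPos (cylIso f hJ) (pr a oR) (pr a' oR) :=
  (h.prodMap (pos_id.2 (oriOn ori_oR univ).same) (fun y _ => f.isLocalDiffeomorph y)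
    fun z _ => Glue52.ld_id z).mono fun _ _ => ⟨trivial, trivial⟩

theorem tpos_junc {k : TIso (cylT Y) M J} {k' : TIso (cylT Y') M' J} {f : Y.M ≃ₘ^∞⟮Y.I, Y'.I⟯ Y'.M}
    (hJ : IsOpen J) (hk : TPos k (pr a oR) o) (hk' : TPos k' (pr a' oR) o')
    (h : Pos Y.I Y'.I f univ a a') : TPos (junc k k' f hJ) o o' :=
  hk.symm.trans ((tpos_cylIso hJ h).trans hk')

/-- ORIENTATION OF A JOIN -/
theorem jn_ori {a b : ℝ} {g : TIso M M' (Ioo a b)} (j : Jn M M' M'' g)
    (ho : OriOn M.P.I (M.τ ⁻¹' Iio b) o) (ho' : OriOn M'.P.I (M'.τ ⁻¹' Ioi a) o') (hg : TPos g o o') :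
    ∃ O, Ori M''.P.I O ∧ Dg (finrank ℝ M''.P.E) univ O ∧ TPos j.l o O ∧ TPos j.r o' O := by
  haveI := sigmaCompact M''.P.I M''.P.M
  have e : j.l.φ.source ∩ j.l.φ ⁻¹' j.r.φ.target = M.τ ⁻¹' Ioo a b := by
    rw [j.l.src, j.r.tgt]
    ext x
    exact ⟨fun h => ⟨(j.l.tm x h.1).subst (motive := fun t => a < t) h.2, h.1⟩,
      fun h => ⟨h.2, (j.l.tm x h.2).symm.subst (motive := fun t => a < t) h.1⟩⟩
  have := exists_ori_pd₂ j.l.φ j.r.φ (fun x => (j.cases _).imp j.l.mem_tgt j.r.mem_tgt)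
    (j.l.src ▸ ho) (j.r.src ▸ ho') (by
      rw [e]
      refine Pos.congr hg (isOpen_Ioo.preimage M.cont) fun x hx => ?_
      rw [comp_apply, ← j.eq x hx]
      exact j.r.symm_apply (g.mem hx).1)
  rwa [j.l.src, j.r.src] at this

/-- an isomorphism out of a join is positive if it is so on both parts -/
theorem jn_tpos {V₃ : Type} [NormedAddCommGroup V₃] [NormedSpace ℝ V₃] [FiniteDimensional ℝ V₃]
    {X : TP V₃} {O : X.P.M → Ext X.P.E} {a b : ℝ} {g : TIso M M' (Ioo a b)} (j : Jn M M' M'' g)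
    (hl : TPos j.l o o'') (hr : TPos j.r o' o'') {l : TIso M X (Iio b)} {r : TIso M' X (Ioi a)}
    (hl' : TPos l o O) (hr' : TPos r o' O) {K : TIso M'' X univ} (h1 : ∀ p, M.τ p < b → K (j.l p) = l p)
    (h2 : ∀ q, a < M'.τ q → K (j.r q) = r q) : TPos K o'' O :=
  tpos_of_loc fun t _ => (j.cases t).elim
    (fun h => ⟨_, isOpen_Iio, h, _, hl.symm.trans hl', fun x hx => by
      rw [TIso.trans_apply, ← h1 _ (j.l.symm.mem hx), j.l.apply_symm hx]⟩)
    fun h => ⟨_, isOpen_Ioi, h, _, hr.symm.trans hr', fun x hx => by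
      rw [TIso.trans_apply, ← h2 _ (j.r.symm.mem hx), j.r.apply_symm hx]⟩

end TP

/-- ORIENTATION OF A CAPPED REGION: no sign has to be checked -/
theorem capd_ori {X : Pc V} {β : Type} {H : HB W X β} {C : ∀ a, Cap V (H.Y a)} {Z : Pc V'}
    (D : Capd H C Z) [T2Space Z.M] [SecondCountableTopology Z.M] [∀ a, PreconnectedSpace (H.Y a).M]
    {o : X.M → Ext X.E} (ho : OriOn X.I H.U o) (hC : ∀ a, ∃ c : (C a).P.M → _, Ori (C a).P.I c) :
    ∃ O, Ori Z.I O ∧ Dg (finrank ℝ Z.E) univ O ∧ Pos X.I Z.I D.φ H.U o O := by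
  haveI := sigmaCompact Z.I Z.M
  have h1 := ho.push D.φ D.src.ge
  rw [← D.src, PartialEquiv.image_source_eq_target] at h1
  have h2 : ∀ a, ∃ c, OriOn Z.I (range (D.cap a)) c ∧
      SameOn c (pm Z.I X.I D.φ.symm o) (range (D.cap a) ∩ D.φ.target) := fun a => by
    rcases isEmpty_or_nonempty (C a).P.M with h | h
    · exact ⟨0, by simp [OriOn], by simp [SameOn]⟩
    obtain ⟨c, hc⟩ := hC a
    have k1 : OriOn Z.I (range (D.cap a)) (pm Z.I (C a).P.I (invFun (D.cap a)) c) := by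
      rintro _ ⟨u, rfl⟩
      exact push_ok (g := invFun (D.cap a)) ((D.oe a).loc u)
        (.of_eq (funext (leftInverse_invFun (D.oe a).inj))) ⟨hc.sm u, hc.ne u⟩
    have k2 : range (D.cap a) ∩ D.φ.target = range (D.cap a ∘ (C a).c) := by
      refine Subset.antisymm ?_ ?_
      · rintro _ ⟨⟨z, rfl⟩, hz⟩
        obtain ⟨p, rfl⟩ : z ∈ range (C a).c := by_contra fun k =>
          (D.tgt ▸ hz :) (mem_iUnion.2 ⟨a, z, k, rfl⟩)
        exact ⟨p, rfl⟩
      · rintro _ ⟨p, rfl⟩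
        refine ⟨⟨_, rfl⟩, ?_⟩
        rw [comp_apply, D.eq']
        exact D.φ.map_source (D.mem_src (H.mem a _ _ (Real.exp_pos _)))
    rcases same_or (k1.mono inter_subset_left) (h1.mono inter_subset_right)
      (k2 ▸ isPreconnected_range ((D.oe a).continuous.comp (C a).isEnd.oe.continuous)) with k | k
    exacts [⟨_, k1, k⟩, ⟨_, k1.neg, k⟩]
  choose c hc hc' using h2
  obtain ⟨O, k1, k2, k3⟩ := exists_ori_cover (I := Z.I) (ι := Option β)
    (U := fun i => i.elim D.φ.target fun a => range (D.cap a))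
    (c := fun i => i.elim (pm Z.I X.I D.φ.symm o) c)
    (fun i => by cases i; exacts [D.φ.open_target, (D.oe _).isOpen_range])
    (fun z => (D.surj z).elim (fun ⟨x, hx, e⟩ => ⟨none, e ▸ D.φ.map_source (D.mem_src hx)⟩)
      fun ⟨a, w, _, e⟩ => ⟨some a, w, e⟩)
    (fun i => by cases i; exacts [h1, hc _]) fun i j => by
      rcases i with _ | a <;> rcases j with _ | a'
      · exact (h1.mono inter_subset_left).same
      · exact inter_comm (range (D.cap a')) _ ▸ same_symm (hc' a')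
      · exact hc' a
      · rintro _ ⟨⟨z, rfl⟩, w, e⟩
        obtain rfl := D.disj _ _ _ _ e
        exact (hc _).same _ ⟨z, rfl⟩
  exact ⟨O, k1, k2, (pos_push D.φ ho D.src.ge).right (fun _ h => ldp D.φ (D.mem_src h))
    (fun _ h => D.φ.map_source (D.mem_src h)) (k3 none)⟩

end Crest.Agent.X212.Orx52
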