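import Crest.Agent.X212.Orx52.Gen
import Crest.Agent.X212.Line51.Glue
import Crest.Agent.X212.Ext52.Top

/-!
# X212 / Orx52 (helper52): products, standard orientations, points, spheres, fillings

* `pr o o'` : the product form, `tp_pr`, `ori_pr`, `same_pr`, `pm_pr`, `pm_prodMap`;
* `oR = dt`, `oZ = dx dy`, `oC = dθ`, `oT = dθ dx dy` on `Circle × ℂ`, `oV` on `ℂ × ℂ`;
* `ok_point`, `exists_ori_points` : orientations extend over isolated points; `exists_ori_sphere`;
* `oS t` on `S3` (the tube is positive), `oF t σ` on `Fill t σ` (the exterior is positive).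
-/

set_option autoImplicit false
set_option linter.unusedSectionVars false
set_option linter.style.haveILetI false

open Set Filter Topology Function Module Metric
open scoped ContDiff Manifold
open Crest.Agent.R208 Crest.Agent.R208.F Crest.Agent.R208.FI Crest.Agent.X212.Dr59 Crest.Agent.X212.Int54
open Crest.Agent.X212.Glue52 Crest.Agent.X212.Ext52 Crest.GeometryTopology.DehnSurgery
open Crest.Agent.X212.Line51 (ang)

noncomputable section

namespace Crest.Agent.X212.Orx52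

variable {E : Type*} [NormedAddCommGroup E] [NormedSpace ℝ E] [FiniteDimensional ℝ E]
  {H : Type*} [TopologicalSpace H] {I : ModelWithCorners ℝ E H} [I.Boundaryless]
  {M : Type*} [TopologicalSpace M] [ChartedSpace H M] [IsManifold I ∞ M]
  {E' : Type*} [NormedAddCommGroup E'] [NormedSpace ℝ E'] [FiniteDimensional ℝ E']
  {H' : Type*} [TopologicalSpace H'] {J : ModelWithCorners ℝ E' H'} [J.Boundaryless]
  {N : Type*} [TopologicalSpace N] [ChartedSpace H' N] [IsManifold J ∞ N]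
  {F : Type*} [NormedAddCommGroup F] [NormedSpace ℝ F] [FiniteDimensional ℝ F]
  {G : Type*} [TopologicalSpace G] {K : ModelWithCorners ℝ F G} [K.Boundaryless]
  {P : Type*} [TopologicalSpace P] [ChartedSpace G P] [IsManifold K ∞ P]
  {F' : Type*} [NormedAddCommGroup F'] [NormedSpace ℝ F'] [FiniteDimensional ℝ F']
  {G' : Type*} [TopologicalSpace G'] {L : ModelWithCorners ℝ F' G'} [L.Boundaryless]
  {Q : Type*} [TopologicalSpace Q] [ChartedSpace G' Q] [IsManifold L ∞ Q]

/-! ### linear algebra -/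

theorem tp_ne_of_evA {n : ℕ} (h : finrank ℝ E = n) (v : Fin n → E) {c : Ext E}
    (hc : evA E n c v ≠ 0) : tp E c ≠ 0 := by
  obtain ⟨k, -, e⟩ := evA_eq_tp h v
  exact right_ne_zero_of_mul (e c ▸ hc)

theorem isDeg_vol0 : IsDeg (finrank ℝ E) (vol0 E) := fun _ hq => evA_iMulti_ne hq.symm _

theorem dpl_top (c : Ext E) : T.dpl (finrank ℝ E) c = tp E c • vol0 E := by
  refine T.ext_evA fun q => ?_
  rw [T.evA_dpl, map_smul]
  split_ifs with h
  · subst h
    ext v
    rw [AlternatingMap.smul_apply, evA_top, evA_top, tp_vol0, smul_eq_mul, mul_one, mul_comm]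
  · rw [isDeg_vol0 q h, smul_zero]

theorem eq_top {c : Ext E} (h : IsDeg (finrank ℝ E) c) : c = tp E c • vol0 E := by
  rw [← dpl_top, T.dpl_of_isDeg h]

theorem tp_of_deg {k : ℕ} {c : Ext E} (h : IsDeg k c) (hk : k ≠ finrank ℝ E) : tp E c = 0 := by
  rw [tp_apply, h _ hk.symm]
  rfl

/-- the product of two constant forms -/
def px (c : Ext E) (c' : Ext E') : Ext (E × E') :=
  pb (LinearMap.fst ℝ E E') c * pb (LinearMap.snd ℝ E E') c'

variable (E E') in
/-- the constant of the product formula -/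
def kap : ℝ := tp (E × E') (px (vol0 E) (vol0 E'))

theorem kap_ne : kap E E' ≠ 0 := by
  refine tp_ne_of_evA (n := finrank ℝ E + finrank ℝ E') finrank_prod
    (Fin.append (fun i => (finBasis ℝ E i, 0)) fun i => (0, finBasis ℝ E' i)) ?_
  rw [px, vol0, vol0, pb_iMulti, pb_iMulti, ExteriorAlgebra.ιMulti_mul_ιMulti, evA_iMulti]
  convert (Matrix.det_one (n := Fin (finrank ℝ E + finrank ℝ E')) (R := ℝ)).trans_ne one_ne_zero
  ext i j
  have h : ∀ (a : Fin (finrank ℝ E)) (b : Fin (finrank ℝ E')),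
      Fin.castAdd (finrank ℝ E') a ≠ Fin.natAdd (finrank ℝ E) b := fun a b e => by
    have := congrArg Fin.val e
    simp at this
    omega
  induction i using Fin.addCases <;> induction j using Fin.addCases <;>
    simp [Matrix.one_apply, Finsupp.single_apply, h, (h _ _).symm]

theorem tp_px (c : Ext E) (c' : Ext E') : tp (E × E') (px c c') = kap E E' * tp E c * tp E' c' := by
  have h : ∀ j k, j ≤ finrank ℝ E → k ≤ finrank ℝ E' → j ≠ finrank ℝ E ∨ k ≠ finrank ℝ E' →
      tp (E × E') (px (T.dpl j c) (T.dpl k c')) = 0 := fun j k hj hk h =>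
    tp_of_deg (T.isDeg_mul ((T.isDeg_dpl j c).pb _) ((T.isDeg_dpl k c').pb _))
      (by rw [finrank_prod]; omega)
  conv_lhs => rw [← T.sum_dpl c, ← T.sum_dpl c', px, map_sum, map_sum, Finset.sum_mul_sum, map_sum]
  rw [Finset.sum_range_succ, Finset.sum_eq_zero fun j hj => ?_, map_sum, Finset.sum_range_succ,
    Finset.sum_eq_zero fun k hk => ?_, dpl_top, dpl_top, map_smul, map_smul, smul_mul_smul_comm,
    map_smul, zero_add, zero_add, smul_eq_mul, mul_comm, mul_assoc]
  · rfl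
  · exact h _ _ le_rfl (Finset.mem_range.1 hk).le (Or.inr (Finset.mem_range.1 hk).ne)
  · rw [map_sum]
    exact Finset.sum_eq_zero fun k hk => h _ _ (Finset.mem_range.1 hj).le
      (Nat.lt_succ_iff.1 (Finset.mem_range.1 hk)) (Or.inl (Finset.mem_range.1 hj).ne)

/-! ### products -/

/-- the product form -/
def pr (o : M → Ext E) (o' : N → Ext E') (z : M × N) : Ext (E × E') := px (o z.1) (o' z.2)

theorem tp_pr (o : M → Ext E) (o' : N → Ext E') (z : M × N) :
    tp (E × E') (pr o o' z) = kap E E' * tp E (o z.1) * tp E' (o' z.2) := tp_px _ _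

theorem mf_fst (z : M × N) : mf (I.prod J) I Prod.fst z = ContinuousLinearMap.fst ℝ E E' := mfderiv_fst

theorem mf_snd (z : M × N) : mf (I.prod J) J Prod.snd z = ContinuousLinearMap.snd ℝ E E' := mfderiv_snd

variable (I J) in
theorem pr_eq (o : M → Ext E) (o' : N → Ext E') :
    pr o o' = pm (I.prod J) I Prod.fst o * pm (I.prod J) J Prod.snd o' := by
  funext z
  rw [Pi.mul_apply, pm_apply, pm_apply, mf_fst, mf_snd]
  rfl

theorem cAt_pr {n : WithTop ℕ∞} (hn : n ≤ ∞) {o : M → Ext E} {o' : N → Ext E'} {z : M × N}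
    (h : CAt I n o z.1) (h' : CAt J n o' z.2) : CAt (I.prod J) n (pr o o') z := by
  rw [pr_eq I J]
  exact (h.pm hn contMDiffAt_fst).mul (h'.pm hn contMDiffAt_snd)

theorem tp_pr_ne {o : M → Ext E} {o' : N → Ext E'} {z : M × N} (h : tp E (o z.1) ≠ 0)
    (h' : tp E' (o' z.2) ≠ 0) : tp (E × E') (pr o o' z) ≠ 0 := by
  rw [tp_pr]
  exact mul_ne_zero (mul_ne_zero kap_ne h) h'

theorem ori_pr {o : M → Ext E} {o' : N → Ext E'} (h : Ori I o) (h' : Ori J o') :
    Ori (I.prod J) (pr o o') :=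
  ⟨fun _ => cAt_pr le_rfl (h.sm _) (h'.sm _), fun _ => tp_pr_ne (h.ne _) (h'.ne _)⟩

theorem dg_pr {k l : ℕ} {o : M → Ext E} {o' : N → Ext E'} {s : Set M} {t : Set N} (h : Dg k s o)
    (h' : Dg l t o') : Dg (k + l) (s ×ˢ t) (pr o o') := fun _ hz =>
  T.isDeg_mul ((h _ hz.1).pb _) ((h' _ hz.2).pb _)

theorem same_pr {o a : M → Ext E} {o' a' : N → Ext E'} {s : Set M} {t : Set N} (h : SameOn o a s)
    (h' : SameOn o' a' t) : SameOn (pr o o') (pr a a') (s ×ˢ t) := fun z hz => by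
  have := mul_pos (mul_self_pos.2 (kap_ne (E := E) (E' := E'))) (mul_pos (h _ hz.1) (h' _ hz.2))
  rw [tp_pr, tp_pr]
  linarith

theorem pr_neg_left (o : M → Ext E) (o' : N → Ext E') : pr (-o) o' = -pr o o' :=
  funext fun z => by simp [pr, px]

theorem pr_neg_right (o : M → Ext E) (o' : N → Ext E') : pr o (-o') = -pr o o' :=
  funext fun z => by simp [pr, px]

theorem pm_pr {φ : P → M × N} {y : P} (hφ : MDifferentiableAt K (I.prod J) φ y) (o : M → Ext E)
    (o' : N → Ext E') : pm K (I.prod J) φ (pr o o') y =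
      pm K I (Prod.fst ∘ φ) o y * pm K J (Prod.snd ∘ φ) o' y := by
  rw [pr_eq I J, pm_mul, Pi.mul_apply, pm_comp mdifferentiableAt_fst hφ, pm_comp mdifferentiableAt_snd hφ]

theorem pm_prodMap {f : P → M} {g : Q → N} {z : P × Q} (hf : MDifferentiableAt K I f z.1)
    (hg : MDifferentiableAt L J g z.2) (o : M → Ext E) (o' : N → Ext E') :
    pm (K.prod L) (I.prod J) (Prod.map f g) (pr o o') z = pr (pm K I f o) (pm L J g o') z := by
  rw [pm_pr (hf.prodMap hg), pr_eq K L, Pi.mul_apply, pm_comp hf mdifferentiableAt_fst,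
    pm_comp hg mdifferentiableAt_snd]
  rfl

/-! ### standard forms -/

/-- `dt` -/
def oR : ℝ → Ext ℝ := df 𝓘(ℝ, ℝ) id

/-- `dx ∧ dy` -/
def oZ : ℂ → Ext ℂ := df 𝓘(ℝ, ℂ) Complex.re * df 𝓘(ℝ, ℂ) Complex.im

/-- `dθ` -/
def oC : Circle → Ext (EuclideanSpace ℝ (Fin 1)) := ang (𝓡 1) id

/-- `dθ ∧ dx ∧ dy` -/
def oT : Circle × ℂ → Ext (EuclideanSpace ℝ (Fin 1) × ℂ) := pr oC oZ

/-- the complex orientation of `ℂ × ℂ` -/
def oV : ℂ × ℂ → Ext (ℂ × ℂ) := pr oZ oZ

theorem oR_eq (t : ℝ) : oR t = io LinearMap.id := by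
  rw [oR, df, mf_id]
  rfl

theorem oZ_eq (z : ℂ) : oZ z = io Complex.reLm * io Complex.imLm := by
  rw [oZ, Pi.mul_apply, df, df, mf_eq_fderiv, mf_eq_fderiv, show Complex.re = Complex.reCLM from rfl,
    show Complex.im = Complex.imCLM from rfl, ContinuousLinearMap.fderiv, ContinuousLinearMap.fderiv]
  rfl

theorem pm_oR {g : M → ℝ} {x : M} (hg : MDifferentiableAt I 𝓘(ℝ, ℝ) g x) :
    pm I 𝓘(ℝ, ℝ) g oR x = df I g x := pm_df hg mdifferentiableAt_id

theorem pm_oZ {g : M → ℂ} {x : M} (hg : MDifferentiableAt I 𝓘(ℝ, ℂ) g x) :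
    pm I 𝓘(ℝ, ℂ) g oZ x = df I (fun y => (g y).re) x * df I (fun y => (g y).im) x := by
  rw [oZ, pm_mul, Pi.mul_apply, pm_df (g := Complex.re) hg Complex.reCLM.differentiableAt.mdifferentiableAt,
    pm_df (g := Complex.im) hg Complex.imCLM.differentiableAt.mdifferentiableAt]
  rfl

theorem pm_oC {g : M → Circle} {x : M} (hg : MDifferentiableAt I (𝓡 1) g x) :
    pm I (𝓡 1) g oC x = ang I g x := Line51.pm_ang contMDiffAt_id hg

theorem ori_oR : Ori 𝓘(ℝ, ℝ) oR :=
  ⟨fun _ => smAt_df contMDiffAt_id, fun t => tp_ne_of_evA (n := 1) (by simp) (fun _ => 1) (by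
    rw [oR_eq, evA_io]; exact one_ne_zero)⟩

theorem ori_oZ : Ori 𝓘(ℝ, ℂ) oZ :=
  ⟨fun _ => (smAt_df Complex.reCLM.contDiff.contMDiff.contMDiffAt).mul
    (smAt_df Complex.imCLM.contDiff.contMDiff.contMDiffAt), fun t =>
    tp_ne_of_evA (n := 2) (by simp) ![1, Complex.I] (by
      rw [oZ_eq, evA_io_mul, Fin.sum_univ_two, evA_io, evA_io]; simp)⟩

theorem pm_exp_oC : pm 𝓘(ℝ, ℝ) (𝓡 1) Circle.exp oC = oR := funext fun t =>
  (pm_oC ((contMDiff_circleExp t).mdifferentiableAt ne0)).trans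
    (Line51.ang_exp (f := id) contMDiffAt_id)

theorem ori_oC : Ori (𝓡 1) oC := by
  refine ⟨fun _ => Line51.smAt_th (Line51.msm_sc contMDiffAt_id), fun u => ?_⟩
  rw [← Circle.exp_arg u]
  generalize Complex.arg u = t
  have := ori_oR.ne t
  rw [← pm_exp_oC, tp_ld (ld_circleExp t)] at this
  exact right_ne_zero_of_mul this

theorem ori_oT : Ori IT oT := ori_pr ori_oC ori_oZ

theorem ori_oV : Ori 𝓘(ℝ, ℂ × ℂ) oV := by
  refine ⟨fun z => cAt_model.2 ?_, fun _ => tp_pr_ne (ori_oZ.ne _) (ori_oZ.ne _)⟩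
  have : oV = fun _ => oV 0 := funext fun w => by simp only [oV, pr, oZ_eq]
  rw [this]
  exact contDiffAt_const

theorem dg_oR {s : Set ℝ} : Dg 1 s oR := dg_df _
theorem dg_oZ {s : Set ℂ} : Dg 2 s oZ := (dg_df _).mul (dg_df _)
theorem dg_oC {s : Set Circle} : Dg 1 s oC := Line51.dg_ang _

/-! ### points and spheres -/

theorem preconn_ball (h2 : 1 < finrank ℝ E) (c : E) {r : ℝ} (hr : 0 < r) :
    IsPreconnected (ball c r \ {c}) := by
  let b := OpenPartialHomeomorph.univBall c r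
  have bs : b.source = univ := OpenPartialHomeomorph.univBall_source c r
  have b0 : b 0 = c := OpenPartialHomeomorph.univBall_apply_zero _ _
  have : ball c r \ {c} = b '' {0}ᶜ := by
    rw [compl_eq_univ_sdiff, ← bs, b.injOn.image_sdiff_subset (by simp [bs]), b.image_source_eq_target,
      image_singleton, b0, OpenPartialHomeomorph.univBall_target c hr]
  rw [this]
  exact (isConnected_compl_singleton_of_one_lt_rank (by rw [← finrank_eq_rank]; exact_mod_cast h2)
    0).isPreconnected.image _ (OpenPartialHomeomorph.continuous_univBall c r).continuousOn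

theorem ok_point (h2 : 1 < finrank ℝ E) {D : Set M} {a : M → Ext E}
    (ha : ∀ x ∈ D, SmAt I a x ∧ tp E (a x) ≠ 0) {x : M} (hx : x ∉ D) (hD : ∀ᶠ y in 𝓝[≠] x, y ∈ D) :
    Ok I D (fun x => tp E (a x)) x := by
  set e := chE I x
  have h0 : x ∈ e.source := mem_extChartAt_source x
  have c : Tendsto e.symm (𝓝 (e x)) (𝓝 x) := tendsto_chart_symm x
  obtain ⟨r, hr, hb⟩ := Metric.eventually_nhds_iff_ball.1
    ((c.eventually (eventually_nhdsWithin_iff.1 hD)).and (e.open_target.mem_nhds (e.map_source h0)))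
  have e0 : e.symm (e x) = x := e.left_inv h0
  have k := ok_of_conn (D := D) (q := e.symm) ha isOpen_ball
    (fun y hy => e.symm.isLocalDiffeomorphAt _ _ _ (hb y hy).2)
    (fun y _ => ⟨ori_model.sm y, ori_model.ne y⟩) ?_ (mem_ball_self hr)
  · rwa [e0] at k
  · convert preconn_ball h2 (e x) hr using 1
    ext y
    refine and_congr_right fun hy => ⟨fun h h' => hx ?_, fun h => (hb y hy).1 fun h' => h ?_⟩
    · rwa [mem_singleton_iff.1 h', mem_preimage, e0] at h
    · rw [← mem_singleton_iff.1 h']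
      exact (e.right_inv (hb _ hy).2).symm

theorem neBot_ne (I : ModelWithCorners ℝ E H) [I.Boundaryless] {M : Type*} [TopologicalSpace M]
    [ChartedSpace H M] [IsManifold I ∞ M] (h : 0 < finrank ℝ E) (x : M) : (𝓝[≠] x).NeBot := by
  haveI : Nontrivial E := Module.nontrivial_of_finrank_pos h
  haveI := Module.punctured_nhds_neBot ℝ E (extChartAt I x x)
  refine Tendsto.neBot (f := (extChartAt I x).symm) (x := 𝓝[≠] (extChartAt I x x))
    (tendsto_nhdsWithin_iff.2 ⟨(tendsto_chart_symm x).mono_left nhdsWithin_le_nhds, ?_⟩)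
  filter_upwards [self_mem_nhdsWithin, nhdsWithin_le_nhds (extChartAt_target_mem_nhds (I := I) x)]
    with u h1 h2 h3
  exact h1 (((extChartAt I x).right_inv h2).symm.trans (congrArg _ h3))

theorem dense_of_points (I : ModelWithCorners ℝ E H) [I.Boundaryless] {M : Type*} [TopologicalSpace M]
    [ChartedSpace H M] [IsManifold I ∞ M] (h : 0 < finrank ℝ E) {D : Set M}
    (hD : ∀ x ∉ D, ∀ᶠ y in 𝓝[≠] x, y ∈ D) :
    Dense D := fun x => (em (x ∈ D)).elim (fun h => subset_closure h) fun hx =>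
  haveI := neBot_ne I h x
  mem_closure_iff_frequently.2 ((hD x hx).frequently.filter_mono nhdsWithin_le_nhds)

/-- orientations extend over isolated points -/
theorem exists_ori_points [T2Space M] [SigmaCompactSpace M] (h2 : 1 < finrank ℝ E) {D : Set M}
    (hO : IsOpen D) (hD : ∀ x ∉ D, ∀ᶠ y in 𝓝[≠] x, y ∈ D) {a : M → Ext E}
    (ha : ∀ x ∈ D, SmAt I a x ∧ tp E (a x) ≠ 0) :
    ∃ o, Ori I o ∧ Dg (finrank ℝ E) univ o ∧ SameOn o a D :=
  exists_ori_open (dense_of_points I (by omega) hD) hO ha fun x hx => ok_point h2 ha hx (hD x hx)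

/-- the same for the complement of a finite set -/
theorem exists_ori_finite [T2Space M] [SigmaCompactSpace M] (h2 : 1 < finrank ℝ E) {S : Set M}
    (hS : S.Finite) {a : M → Ext E} (ha : ∀ x ∉ S, SmAt I a x ∧ tp E (a x) ≠ 0) :
    ∃ o, Ori I o ∧ Dg (finrank ℝ E) univ o ∧ SameOn o a Sᶜ := by
  refine exists_ori_points h2 hS.isClosed.isOpen_compl (fun x _ => ?_) ha
  filter_upwards [self_mem_nhdsWithin, nhdsWithin_le_nhds
    (((hS.subset (sdiff_subset (t := {x}))).isClosed.isOpen_compl).mem_nhds fun h => h.2 rfl)]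
    with y h1 h2 h3 using h2 ⟨h3, h1⟩

theorem exists_ori_sphere {V : Type*} [NormedAddCommGroup V] [InnerProductSpace ℝ V] {n : ℕ}
    [Fact (finrank ℝ V = n + 1)] (hn : 1 < n) : ∃ o : sphere (0 : V) 1 → _, Ori (𝓡 n) o := by
  haveI : FiniteDimensional ℝ V := .of_fact_finrank_eq_succ (K := ℝ) n
  haveI : Nontrivial V := Module.nontrivial_of_finrank_eq_succ (R := ℝ) (n := n) Fact.out
  obtain ⟨v⟩ := (NormedSpace.sphere_nonempty (x := (0 : V)) (r := 1)).2 zero_le_one |>.to_subtype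
  obtain ⟨o, ho, -⟩ := exists_ori_finite (I := 𝓡 n) (by simpa using hn) (finite_singleton (-v))
    (a := pm (𝓡 n) (𝓡 n) (chE (𝓡 n) v) fun _ => vol0 _) fun x hx => by
      have h : IsLocalDiffeomorphAt (𝓡 n) (𝓡 n) ∞ (chE (𝓡 n) v) x :=
        (chE (𝓡 n) v).isLocalDiffeomorphAt _ _ _ (by
          show x ∈ (extChartAt (𝓡 n) v).source
          rw [extChartAt_source]
          exact (stereographic'_source (n := n) (-v)).symm ▸ hx)
      exact ⟨(ori_model.sm _).pm h.contMDiffAt, tp_ld_ne h (ori_model.ne (0 : EuclideanSpace ℝ (Fin n)))⟩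
  exact ⟨o, ho⟩

/-- an orientation can be chosen of top degree and positive on a connected piece -/
theorem exists_ori_pos [T2Space M] [SigmaCompactSpace M] {o : M → Ext E} (ho : Ori I o) {q : N → M}
    (hq : IsLocalDiffeomorph J I ∞ q) [PreconnectedSpace N] {a : N → Ext E'} (ha : Ori J a) :
    ∃ O, Ori I O ∧ Dg (finrank ℝ E) univ O ∧ SameOn (pm J I q O) a univ := by
  have k : ∀ o : M → Ext E, Ori I o → SameOn (pm J I q o) a univ →
      ∃ O, Ori I O ∧ Dg (finrank ℝ E) univ O ∧ SameOn (pm J I q O) a univ := fun o ho h => by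
    obtain ⟨O, h1, h2, h3⟩ := exists_ori_open dense_univ isOpen_univ (fun x _ => ⟨ho.sm x, ho.ne x⟩)
      fun x hx => (hx trivial).elim
    exact ⟨O, h1, h2, same_trans (same_pm h3 (fun y _ => hq y) (mapsTo_univ _ _)) h⟩
  have hp := ori_pm ho hq
  rcases same_or (fun x _ => ⟨hp.sm x, hp.ne x⟩) (fun x _ => ⟨ha.sm x, ha.ne x⟩) isPreconnected_univ
    with h | h
  · exact k o ho h
  · exact k _ (ori_neg ho) (by rwa [pm_neg])

/-! ### the three-sphere and the fillings -/

variable (t : Tube) (σ : FillingData)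

theorem exists_oS : ∃ O : S3 → Ext E3, Ori (𝓡 3) O ∧ Dg 3 univ O ∧ SameOn (pm IT (𝓡 3) t.τ O) oT univ := by
  haveI : Fact (finrank ℝ (EuclideanSpace ℝ (Fin 4)) = 3 + 1) := ⟨by simp⟩
  obtain ⟨o, ho⟩ := exists_ori_sphere (V := EuclideanSpace ℝ (Fin 4)) (n := 3) (by norm_num)
  simpa using exists_ori_pos ho t.ld ori_oT

/-- the orientation of `S3` for which the tube is positive -/
def oS : S3 → Ext E3 := (exists_oS t).choose

theorem ori_oS : Ori (𝓡 3) (oS t) := (exists_oS t).choose_spec.1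
theorem dg_oS : Dg 3 univ (oS t) := (exists_oS t).choose_spec.2.1
theorem oS_τ : SameOn (pm IT (𝓡 3) t.τ (oS t)) oT univ := (exists_oS t).choose_spec.2.2

/-- the orientation of the exterior -/
def oE : t.Ext → Ext E3 := pm (𝓡 3) (𝓡 3) Subtype.val (oS t)

theorem ori_oE : Ori (𝓡 3) (oE t) := ori_pm (ori_oS t) (ld_val _)

theorem exists_oF : ∃ O : Fill t σ → Ext E3, Ori (𝓡 3) O ∧ Dg 3 univ O ∧
    SameOn (pm (𝓡 3) (𝓡 3) (t.ie σ) O) (oE t) univ := by
  have := exists_ori_ext (t.two σ).ld_inl (t.two σ).inl_injective (t.denseRange_ie σ) (ori_oE t)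
    fun a ha x hx => by
      revert hx
      refine (t.two σ).ind (fun p h => (h ⟨p, rfl⟩).elim) (fun z _ => ?_) x
      refine ok_of_conn ha isOpen_univ (fun z _ => (t.two σ).ld_inr z)
        (fun z _ => ⟨ori_oT.sm z, ori_oT.ne z⟩) ?_ (mem_univ z)
      convert (isConnected_iff_connectedSpace.2 (inferInstance : ConnectedSpace Cz)).isPreconnected
      ext w
      exact ⟨fun h => (t.mem_range_ie σ).1 h.2, fun h => ⟨trivial, (t.mem_range_ie σ).2 h⟩⟩
  simpa using this

/-- the orientation of the filling for which the exterior is positive -/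
def oF : Fill t σ → Ext E3 := (exists_oF t σ).choose

theorem ori_oF : Ori (𝓡 3) (oF t σ) := (exists_oF t σ).choose_spec.1
theorem dg_oF : Dg 3 univ (oF t σ) := (exists_oF t σ).choose_spec.2.1
theorem oF_ie : SameOn (pm (𝓡 3) (𝓡 3) (t.ie σ) (oF t σ)) (oE t) univ := (exists_oF t σ).choose_spec.2.2

theorem oF_same (σ' : FillingData) : SameOn (pm (𝓡 3) (𝓡 3) (t.ie σ) (oF t σ))
    (pm (𝓡 3) (𝓡 3) (t.ie σ') (oF t σ')) univ := same_trans (oF_ie t σ) (same_symm (oF_ie t σ'))

end Crest.Agent.X212.Orx52
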