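import Crest.Agent.X212.Orx52.Pos
import Crest.Agent.X212.Rod53.Fun

/-!
# X212 / Orx52 (helper52): orientation of the rod manifolds, signs in the charts

* `pm_oZ_polar`, `pm_gl` (`gl a b` multiplies `oT` by `-dt a b`), `pos_hR`;
* `OX T v o O` : `O` orients `X T v` and the exterior chart is positive for `pr o oR`; `exists_OX`, `oX`;
* `OX.cyf`, `OX.tiso`, `OX.fn`, `OX.chg`, `OX.rod`, `OX.vtx`; `oK t v` for knots, `oF_it`.
-/

set_option autoImplicit false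
set_option linter.unusedSectionVars false
set_option linter.style.haveILetI false

open Set Filter Topology Function Module Metric
open scoped ContDiff Manifold
open Crest.Agent.R208 Crest.Agent.R208.F Crest.Agent.R208.FI Crest.Agent.X212.Dr59 Crest.Agent.X212.Int54
open Crest.Agent.X212.Glue52 Crest.GeometryTopology.DehnSurgery
open Crest.Agent.X212.Line51 Crest.Agent.X212.Pj41 Crest.Agent.X212.Rod53 Crest.Agent.X212.Cyl58

noncomputable section

namespace Crest.Agent.X212.Orx52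

section calc1

variable {E : Type*} [NormedAddCommGroup E] [NormedSpace ℝ E] [FiniteDimensional ℝ E]
  {H : Type*} [TopologicalSpace H] {I : ModelWithCorners ℝ E H} [I.Boundaryless]
  {M : Type*} [TopologicalSpace M] [ChartedSpace H M] [IsManifold I ∞ M]
  {E' : Type*} [NormedAddCommGroup E'] [NormedSpace ℝ E'] [FiniteDimensional ℝ E']
  {H' : Type*} [TopologicalSpace H'] {J : ModelWithCorners ℝ E' H'} [J.Boundaryless]
  {N : Type*} [TopologicalSpace N] [ChartedSpace H' N] [IsManifold J ∞ N]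

theorem Pos.smul {f : N → M} {s : Set N} {a : N → Ext E'} {o : M → Ext E} (h : Pos J I f s a o) {c : ℝ}
    (hc : c ≠ 0) : Pos J I f s (c • a) (c • o) := fun y hy => by
  have := mul_pos (mul_self_pos.2 hc) (h y hy)
  rw [pm_smul, Pi.smul_apply, Pi.smul_apply, map_smul, map_smul, smul_eq_mul, smul_eq_mul]
  linarith

theorem Pos.smul_left {f : N → M} {s : Set N} {a : N → Ext E'} {o : M → Ext E} {c : ℝ}
    (h : Pos J I f s a (c • o)) : Pos J I f s (c • a) o := fun y hy => by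
  have := h y hy
  rw [pm_smul, Pi.smul_apply, map_smul, smul_eq_mul] at this
  rw [Pi.smul_apply, map_smul, smul_eq_mul]
  linarith

theorem OriOn.smul {s : Set M} {o : M → Ext E} (h : OriOn I s o) {c : ℝ} (hc : c ≠ 0) :
    OriOn I s (c • o) := fun x hx => ⟨(h x hx).1.smul c, by simpa using ⟨hc, (h x hx).2⟩⟩

theorem pr_smul_left (c : ℝ) (o : M → Ext E) (o' : N → Ext E') : pr (c • o) o' = c • pr o o' :=
  funext fun z => by simp [pr, px]

theorem df_congr {f g : M → ℝ} {x : M} (h : f =ᶠ[𝓝 x] g) : df I f x = df I g x := by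
  rw [df, df, mf_congr h]

theorem df_mul {f g : M → ℝ} {x : M} (hf : FSm I f x) (hg : FSm I g x) :
    df I (fun y => f y * g y) x = g x • df I f x + f x • df I g x := by
  rw [df, df, df, ← map_smul, ← map_smul, ← map_add]
  refine congrArg io (LinearMap.ext fun v => ?_)
  have := Sob92.dv_bil (I := I) (e := fun _ => v) (ContinuousLinearMap.mul ℝ ℝ)
    (hf.mdifferentiableAt ne0) (hg.mdifferentiableAt ne0)
  exact this.trans (by
    show mf I 𝓘(ℝ, ℝ) f x v * g x + f x * mf I 𝓘(ℝ, ℝ) g x v = g x * mf I 𝓘(ℝ, ℝ) f x v + _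
    rw [mul_comm (g x)]
    rfl)

theorem dc_circle {u : M → Circle} {x : M} (hu : CSm I u x) (v : E) :
    dc I (fun y => (u y : ℂ)) x v = Complex.I * u x * tl I (sc u) x v := by
  have h0 : FSm I (fun y => (u y : ℂ)) x := (contMDiff_coe _).comp x hu
  have h1 := dc_mul h0.star' h0 v
  have h2 : ∀ y, star (u y : ℂ) * u y = 1 := fun y => by
    rw [Complex.star_def, Complex.conj_mul', Circle.norm_coe]
    simp
  rw [funext h2, dc_const, dc_star h0] at h1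
  rw [tl_eq_sum]
  simp only [Finset.univ_unique, Finset.sum_singleton, sc, Matrix.of_apply]
  generalize dc I (fun y => (u y : ℂ)) x v = w at h1 ⊢
  have h3 : star (u x : ℂ) * w = (star (u x : ℂ) * w).im * Complex.I := by
    have := congrArg Complex.re h1
    apply Complex.ext <;> simp at this ⊢
    linarith
  linear_combination (u x : ℂ) * h3 - w * h2 x

theorem pm_oZ_polar {r : M → ℝ} {u : M → Circle} {x : M} (hr : FSm I r x) (hu : CSm I u x) :
    pm I 𝓘(ℝ, ℂ) (fun y => (r y : ℂ) * u y) oZ x = r x • (df I r x * ang I u x) := by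
  have h0 : FSm I (fun y => (u y : ℂ)) x := (contMDiff_coe _).comp x hu
  have h1 : FSm I (fun y => (r y : ℂ) * u y) x := FSm.mul' hr.ofReal h0
  have h2 : ∀ v, dc I (fun y => (r y : ℂ) * u y) x v =
      (mf I 𝓘(ℝ, ℝ) r x v : ℝ) * u x + r x * (Complex.I * u x * tl I (sc u) x v) := fun v => by
    rw [← dc_circle hu, ← dc_ofReal hr]
    exact dc_mul hr.ofReal h0 v
  have h3 : df I (fun y => ((r y : ℂ) * u y).re) x =
      (u x : ℂ).re • df I r x - (r x * (u x : ℂ).im) • ang I u x := by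
    rw [df, df, ang, th, ← map_smul, ← map_smul, ← map_sub]
    refine congrArg io (LinearMap.ext fun v => (mf_re (md_of h1) v).trans ?_)
    rw [h2]
    simp
    ring
  have h4 : df I (fun y => ((r y : ℂ) * u y).im) x =
      (u x : ℂ).im • df I r x + (r x * (u x : ℂ).re) • ang I u x := by
    rw [df, df, ang, th, ← map_smul, ← map_smul, ← map_add]
    refine congrArg io (LinearMap.ext fun v => (mf_im (md_of h1) v).trans ?_)
    rw [h2]
    simp
    ring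
  have h5 : (u x : ℂ).re * (u x : ℂ).re + (u x : ℂ).im * (u x : ℂ).im = 1 := by
    rw [← Complex.normSq_apply, Circle.normSq_coe]
  rw [pm_oZ (md_of h1), h3, h4, df, ang, th]
  generalize (mf I 𝓘(ℝ, ℝ) r x : E →ₗ[ℝ] ℝ) = ρ
  simp only [sub_mul, mul_add, smul_mul_smul_comm, io_sq, smul_zero, io_anti (tl I (sc u) x) ρ]
  linear_combination (norm := module) (r x * h5) • (io ρ * io (tl I (sc u) x))

theorem io_three (l m : Module.Dual ℝ E) : io l * (io m * io l) = 0 := by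
  rw [io_anti m, mul_neg, ← mul_assoc, io_sq, zero_mul, neg_zero]

theorem io_three' (l m n : Module.Dual ℝ E) : io l * (io m * io n) = -(io n * (io m * io l)) := by
  rw [io_anti m n, mul_neg, ← mul_assoc, io_anti l n, neg_mul, neg_neg, mul_assoc, io_anti l m, mul_neg]

end calc1

theorem sm_norm {z : Circle × ℂ} (h : z.2 ≠ 0) : FSm IT (fun w : Circle × ℂ => ‖w.2‖) z :=
  (contMDiffAt_iff_contDiffAt.2 (contDiffAt_norm_c h)).comp z contMDiffAt_snd

theorem sm_dir {z : Circle × ℂ} (h : z.2 ≠ 0) : CSm IT (fun w : Circle × ℂ => dir w.2) z :=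
  (contMDiffAt_dir h).comp z contMDiffAt_snd

theorem oT_polar {z : Circle × ℂ} (h : z.2 ≠ 0) : oT z =
    ‖z.2‖ • (ang IT Prod.fst z * (df IT (fun w => ‖w.2‖) z * ang IT (fun w => dir w.2) z)) := by
  rw [oT, pr_eq (𝓡 1) 𝓘(ℝ, ℂ), Pi.mul_apply, pm_oC mdifferentiableAt_fst, ← mul_smul_comm,
    ← pm_oZ_polar (sm_norm h) (sm_dir h)]
  simp only [norm_mul_dir]

theorem ang_mon (m n : ℤ) {z : Circle × ℂ} (h : z.2 ≠ 0) :
    ang IT (fun w : Circle × ℂ => dir w.2 ^ m * w.1 ^ n) z =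
      (m : ℝ) • ang IT (fun w => dir w.2) z + (n : ℝ) • ang IT Prod.fst z := by
  rw [← ang_zpow (sm_dir h), ← ang_zpow contMDiffAt_fst,
    ← ang_mul ((sm_dir h).zpow m) (CSm.zpow contMDiffAt_fst n)]
  rfl

/-- the Jacobian of a monomial map -/
theorem pm_gl (a b : Z2) {z : Circle × ℂ} (h : z.2 ≠ 0) :
    pm IT IT (gl a b) oT z = -(dt a b : ℝ) • oT z := by
  have k : ∀ m n : ℤ, CSm IT (fun w : Circle × ℂ => dir w.2 ^ m * w.1 ^ n) z :=
    fun m n => ((sm_dir h).zpow m).mul (CSm.zpow contMDiffAt_fst n)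
  have e := pm_oZ_polar (sm_norm h) (k a.2 b.2)
  rw [oT_polar h, oT, pm_pr ((cm_gl a b h).mdifferentiableAt ne0),
    pm_oC (g := Prod.fst ∘ gl a b) ((k a.1 b.1).mdifferentiableAt ne0)]
  refine (congrArg₂ (· * ·) (ang_mon a.1 b.1 h) e).trans ?_
  rw [ang_mon _ _ h]
  simp only [ang, th, df, add_mul, mul_add, smul_mul_assoc, mul_smul_comm, io_three, smul_zero, dt,
    io_three' (tl IT (sc fun w : Circle × ℂ => dir w.2) z) _ (tl IT (sc Prod.fst) z)]
  push_cast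
  module

theorem pos_R : Pos 𝓘(ℝ, ℝ) 𝓘(ℝ, ℝ) id univ oR oR := pos_id.2 (oriOn ori_oR univ).same

theorem dt_ne {a b : Z2} (hu : Uni a b) : (dt a b : ℝ) ≠ 0 := by
  exact_mod_cast left_ne_zero_of_mul_eq_one hu.sq

theorem pos_gl {a b : Z2} (hu : Uni a b) :
    Pos IT IT (gl a b) {z | z.2 ≠ 0} (-(dt a b : ℝ) • oT) oT :=
  pos_of_eq ((oriOn ori_oT _).smul (neg_ne_zero.2 (dt_ne hu))) (c := fun _ => 1) (fun _ _ => one_pos)
    fun z hz => by rw [pm_gl a b hz, one_smul]; rfl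

theorem conn_ne : IsPreconnected ({0}ᶜ : Set ℂ) :=
  (isConnected_compl_singleton_of_one_lt_rank (by simp) 0).isPreconnected

theorem pos_hR (c : ℝ) : Pos IV IR (hR c) {z | z.1 ≠ 0} (-oV) (pr oT oR) := by
  refine pos_of_pt (u := univ) ?_ (oriOn ori_oV _).neg (oriOn (ori_pr ori_oT ori_oR) _)
    (fun z hz => ld_hR hz) (mapsTo_univ _ _) (y := (1, 0)) one_ne_zero ?_
  · convert conn_ne.prod (isPreconnected_univ (α := ℂ))
    ext z
    simp
  refine pos_of_eq (oriOn ori_oV _).neg (c := fun _ => 8) (fun _ _ => by norm_num) ?_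
  rintro _ rfl
  have h0 : ContMDiffAt IV IR ∞ (hR c) (1, 0) := (ld_hR one_ne_zero).contMDiffAt
  have h1 : ∀ l : ℂ × ℂ →L[ℝ] ℝ, FSm IV l (1, 0) := fun l => l.contDiff.contMDiff _
  have hr : FSm IV (fun z : ℂ × ℂ => ‖z.1‖) (1, 0) :=
    contMDiffAt_iff_contDiffAt.2 ((contDiffAt_norm_c one_ne_zero).comp ((1 : ℂ), (0 : ℂ)) contDiffAt_fst)
  have hd : CSm IV (fun z : ℂ × ℂ => dir z.1) (1, 0) :=
    (contMDiffAt_dir one_ne_zero).comp ((1 : ℂ), (0 : ℂ)) contDiffAt_fst.contMDiffAt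
  have hx : FSm IV (fun z : ℂ × ℂ => z.2.re) (1, 0) :=
    h1 (Complex.reCLM.comp (ContinuousLinearMap.snd ℝ ℂ ℂ))
  have hy : FSm IV (fun z : ℂ × ℂ => z.2.im) (1, 0) :=
    h1 (Complex.imCLM.comp (ContinuousLinearMap.snd ℝ ℂ ℂ))
  have hxx : FSm IV (fun z : ℂ × ℂ => z.2.re * z.2.re) (1, 0) := hx.mul' hx
  have hyy : FSm IV (fun z : ℂ × ℂ => z.2.im * z.2.im) (1, 0) := hy.mul' hy
  have hrr : FSm IV (fun z : ℂ × ℂ => ‖z.1‖ * ‖z.1‖) (1, 0) := hr.mul' hr
  have hs : FSm IV ((fun z : ℂ × ℂ => z.2.re * z.2.re) + fun z => z.2.im * z.2.im) (1, 0) :=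
    hxx.add hyy
  have hm : FSm IV ((fun z : ℂ × ℂ => ‖z.1‖ * ‖z.1‖) -
      ((fun z : ℂ × ℂ => z.2.re * z.2.re) + fun z => z.2.im * z.2.im)) (1, 0) := hrr.sub hs
  have h2 : FSm IV (fun z : ℂ × ℂ => ‖z.1‖ + ‖z.1‖) (1, 0) := hr.add hr
  have e1 : df IV (fun z => (hR c z).1.2.re) (1, 0) = (2 : ℝ) • df IV (fun z : ℂ × ℂ => z.2.re) (1, 0) := by
    rw [show (fun z => (hR c z).1.2.re) = fun z : ℂ × ℂ => (‖z.1‖ + ‖z.1‖) * z.2.re from
      funext fun z => by simp [hR, hyp, two_mul]]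
    refine (df_mul h2 hx).trans ?_
    simp [one_add_one_eq_two]
  have e2 : df IV (fun z => (hR c z).1.2.im) (1, 0) = (2 : ℝ) • df IV (fun z : ℂ × ℂ => z.2.im) (1, 0) := by
    rw [show (fun z => (hR c z).1.2.im) = fun z : ℂ × ℂ => (‖z.1‖ + ‖z.1‖) * z.2.im from
      funext fun z => by simp [hR, hyp, two_mul]]
    refine (df_mul h2 hy).trans ?_
    simp [one_add_one_eq_two]
  have e3 : df IV (Prod.snd ∘ hR c) (1, 0) = (2 : ℝ) • df IV (fun z : ℂ × ℂ => ‖z.1‖) (1, 0) := by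
    rw [show Prod.snd ∘ hR c = (fun _ => c) + ((fun z : ℂ × ℂ => ‖z.1‖ * ‖z.1‖) -
      ((fun z : ℂ × ℂ => z.2.re * z.2.re) + fun z => z.2.im * z.2.im)) from funext fun z => by
        simp [hR, tm, Complex.sq_norm z.2, Complex.normSq_apply, sq ‖z.1‖],
      df_add contMDiffAt_const hm, df_eq_zero EventuallyEq.rfl, zero_add]
    refine (df_sub hrr hs).trans ?_
    rw [df_add hxx hyy, df_mul hr hr, df_mul hx hx, df_mul hy hy]
    simp [two_smul]
  have e4 : oV (1, 0) = df IV (fun z : ℂ × ℂ => ‖z.1‖) (1, 0) * ang IV (fun z : ℂ × ℂ => dir z.1) (1, 0) *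
      (df IV (fun z : ℂ × ℂ => z.2.re) (1, 0) * df IV (fun z : ℂ × ℂ => z.2.im) (1, 0)) := by
    have k1 := pm_oZ_polar hr hd
    simp only [norm_mul_dir, norm_one, one_smul] at k1
    rw [← k1, ← pm_oZ differentiableAt_snd.mdifferentiableAt, pm_apply, pm_apply, mf_eq_fderiv,
      mf_eq_fderiv, fderiv_fst, fderiv_snd]
    rfl
  rw [pm_pr (h0.mdifferentiableAt ne0), pm_oR (g := Prod.snd ∘ hR c) (h0.snd.mdifferentiableAt ne0), oT,
    pm_pr (φ := Prod.fst ∘ hR c) (h0.fst.mdifferentiableAt ne0),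
    pm_oC (g := Prod.fst ∘ Prod.fst ∘ hR c) (h0.fst.fst.mdifferentiableAt ne0),
    pm_oZ (g := Prod.snd ∘ Prod.fst ∘ hR c) (h0.fst.snd.mdifferentiableAt ne0), e3, Pi.neg_apply, e4]
  refine (congrArg₂ (fun A B => ang IV (fun z : ℂ × ℂ => dir z.1) (1, 0) * (A * B) * _) e1 e2).trans ?_
  simp only [df, ang, th, smul_mul_assoc, mul_smul_comm, mul_assoc]
  generalize (mf IV 𝓘(ℝ, ℝ) (fun z : ℂ × ℂ => ‖z.1‖) (1, 0) : ℂ × ℂ →ₗ[ℝ] ℝ) = ρ
  generalize (mf IV 𝓘(ℝ, ℝ) (fun z : ℂ × ℂ => z.2.re) (1, 0) : ℂ × ℂ →ₗ[ℝ] ℝ) = x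
  rw [io_three' x _ ρ, io_anti _ x, ← mul_assoc (io ρ) (io (tl _ _ _)), io_anti ρ (tl _ _ _)]
  simp only [mul_neg, neg_mul, neg_neg, mul_assoc]
  module

/-! ### rod manifolds -/

variable {EN HN : Type} [NormedAddCommGroup EN] [NormedSpace ℝ EN] [FiniteDimensional ℝ EN]
  [TopologicalSpace HN] {IN : ModelWithCorners ℝ EN HN} [IN.Boundaryless]
  {N : Type} [TopologicalSpace N] [ChartedSpace HN N] [IsManifold IN ∞ N] [T2Space N]
  {EN' HN' : Type} [NormedAddCommGroup EN'] [NormedSpace ℝ EN'] [FiniteDimensional ℝ EN']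
  [TopologicalSpace HN'] {IN' : ModelWithCorners ℝ EN' HN'} [IN'.Boundaryless]
  {N' : Type} [TopologicalSpace N'] [ChartedSpace HN' N'] [IsManifold IN' ∞ N'] [T2Space N']

/-- `O` is the orientation of the rod manifold given by `o ∧ dt` in the exterior chart -/
structure OX (T : Tb IN N) (v : ℝ → Z2) (o : N → Ext EN) (O : X T v → Ext E4) : Prop where
  ex : OriOn IN T.Ex o
  ori : Ori (𝓡 4) O
  dg : Dg 4 univ O
  ext : Pos (IN.prod 𝓘(ℝ, ℝ)) (𝓡 4) (T.ext v) (T.Ex ×ˢ univ) (pr o oR) O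

variable {T : Tb IN N} {T' : Tb IN' N'} {v v' : ℝ → Z2} {a b : Z2} {o : N → Ext EN} {o' : N' → Ext EN'}
  {O : X T v → Ext E4} {O' : X T' v' → Ext E4}

theorem mem_ext {p : X T v} : p ∈ T.ext v '' (T.Ex ×ˢ univ) ↔ T.eta v p < 1 := by
  refine ⟨?_, fun h => ?_⟩
  · rintro ⟨q, hq, rfl⟩
    exact T.eta_ext_lt hq.1
  · rcases T.ext_or_axis p with ⟨q, hq, rfl⟩ | ⟨-, -, k, -⟩
    exacts [⟨q, ⟨hq, trivial⟩, rfl⟩, absurd k h.ne]

theorem exists_OX [SecondCountableTopology N] (hv : Loc v) (ho : OriOn IN T.Ex o) : ∃ O, OX T v o O := by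
  haveI := T.secondCountable hv
  haveI := sigmaCompact (𝓡 4) (X T v)
  have h1 := ho.pr (oriOn ori_oR univ)
  have h2 := h1.push (T.ext v) subset_rfl
  obtain ⟨O, k1, k2, k3⟩ := exists_ori_open T.dense_ext
    ((T.ext v).image_source_eq_target.symm ▸ (T.ext v).open_target) h2 fun p hp => by
      induction p using T.ind with
      | h1 q x hq => exact (hp ⟨_, ⟨hq, trivial⟩, rfl⟩).elim
      | h2 a b hu u x hx =>
        refine ok_of_conn h2 isOpen_Ur (fun _ => ldp (T.rod v hu)) (oriOn (ori_pr ori_oT ori_oR) _) ?_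
          (Or.inr hx)
        convert ((isPreconnected_univ (α := Circle)).prod conn_ne).prod (isPreconnected_univ (α := ℝ))
        ext w
        exact ⟨fun h => ⟨⟨trivial, (T.eta_rod hu h.1).1 (mem_ext.1 h.2)⟩, trivial⟩, fun h =>
          ⟨Or.inl h.1.2, mem_ext.2 ((T.eta_rod hu (Or.inl h.1.2)).2 h.1.2)⟩⟩
      | h3 a b hu c hc =>
        refine ok_of_conn h2 isOpen_Uv (fun _ => ldp (T.vtx v hu c)) (oriOn ori_oV _) ?_ (Tb.zero_mem_Uv hc)
        convert conn_ne.prod conn_ne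
        ext w
        exact ⟨fun h => (T.eta_vtx hu h.1).1 (mem_ext.1 h.2), fun h =>
          ⟨Or.inl h, mem_ext.2 ((T.eta_vtx hu (Or.inl h)).2 h)⟩⟩
  exact ⟨O, ho, k1, by simpa using k2, (pos_push _ h1 subset_rfl).right (fun _ => ldp (T.ext v))
    (mapsTo_image _ _) k3⟩

/-- the orientation of a rod manifold -/
def oX [SecondCountableTopology N] (hv : Loc v) (ho : OriOn IN T.Ex o) : X T v → Ext E4 :=
  (exists_OX hv ho).choose

theorem oX_spec [SecondCountableTopology N] (hv : Loc v) (ho : OriOn IN T.Ex o) : OX T v o (oX hv ho) :=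
  (exists_OX hv ho).choose_spec

theorem OX.unique {O₁ : X T v → Ext E4} (h : OX T v o O) (h' : OX T v o O₁) : SameOn O O₁ univ :=
  same_of_dense h.ori h'.ori T.dense_ext (h.ext.same h'.ext fun _ => ldp (T.ext v))

theorem OX.neg (h : OX T v o O) : OX T v (-o) (-O) :=
  ⟨h.ex.neg, ori_neg h.ori, h.dg.neg, pr_neg_left o oR ▸ h.ext.neg⟩

/-- a map out of a rod manifold is positive if it is so in the exterior chart -/
theorem OX.pos_of {F G Z : Type} [NormedAddCommGroup F] [NormedSpace ℝ F] [FiniteDimensional ℝ F]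
    [TopologicalSpace G] {K : ModelWithCorners ℝ F G} [K.Boundaryless] [TopologicalSpace Z]
    [ChartedSpace G Z] [IsManifold K ∞ Z] (h : OX T v o O) {f : X T v → Z} {s : Set (X T v)}
    (hs : IsOpen s) (hf : ∀ p ∈ s, IsLocalDiffeomorphAt (𝓡 4) K ∞ f p) {c : Z → Ext F} (hc : Ori K c)
    (k : Pos (IN.prod 𝓘(ℝ, ℝ)) K (f ∘ T.ext v) (T.Ex ×ˢ univ ∩ T.ext v ⁻¹' s) (pr o oR) c) :
    Pos (𝓡 4) K f s O c := by
  refine Pos.dense T.dense_ext hs ?_ (oriOn h.ori _) (oriOn hc univ) hf (mapsTo_univ _ _)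
  refine (k.of_comp (h.ext.mono inter_subset_left) (fun z hz => hf _ hz.2)
    fun z hz => ldp (T.ext v) hz.1).mono ?_
  rintro _ ⟨h1, q, hq, rfl⟩
  exact ⟨q, ⟨hq, h1⟩, rfl⟩

theorem OX.fn {g : N' → N} (h' : OX T' v' o' O') (h : OX T v o O) (e : TE T' T g)
    (hg : Pos IN' IN g T'.Ex o' o) : Pos (𝓡 4) (𝓡 4) (fn T' T g v' v) (T'.ag v' v) O' O := by
  refine h'.pos_of T'.isOpen_ag (fun _ => e.ld_fn) h.ori (Pos.mono ?_ inter_subset_left)
  refine (h.ext.comp (hg.prodMap pos_R (fun y _ => e.oe.loc y)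
    fun z _ => Glue52.ld_id z) (fun _ => ldp (T.ext v))
    (fun z _ => ld_prodMap_at (e.oe.loc z.1) (Glue52.ld_id z.2))
    fun z hz => ⟨e.mem_Ex.2 hz.1, trivial⟩).congr (T'.isOpen_Ex.prod isOpen_univ) fun z hz => ?_
  exact e.fn_ext hz.1

theorem OX.chg [CompactSpace N] [SecondCountableTopology N] {O₁ : X T v' → Ext E4} (h' : OX T v' o O₁)
    (h : OX T v o O) (hv' : Loc v') (hv : Loc v) {J : Set ℝ} (hJ : IsOpen J) (e : ∀ x ∈ J, v' x = v x) :
    TPos (T.chg hv' hv hJ e) O₁ O :=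
  (h'.fn h (TE.refl T) (pos_id.2 h.ex.same)).mono fun _ hp => Or.inr (interior_maximal e hJ hp)

section Fl

variable {EY HY : Type} [NormedAddCommGroup EY] [NormedSpace ℝ EY] [FiniteDimensional ℝ EY]
  [TopologicalSpace HY] {IY : ModelWithCorners ℝ EY HY} [IY.Boundaryless] {Y : Type} [TopologicalSpace Y]
  [ChartedSpace HY Y] [IsManifold IY ∞ Y]

theorem denseRange_fl (F : Fl T a b IY Y) : DenseRange F.ie := fun y => by
  rcases F.surj y with ⟨q, rfl⟩ | ⟨w, rfl⟩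
  · exact subset_closure ⟨q, rfl⟩
  · refine closure_mono ?_ (image_closure_subset_closure_image F.oeT.continuous ⟨w, Ext52.dense_Cz w, rfl⟩)
    rintro _ ⟨z, hz, rfl⟩
    exact ⟨⟨_, (F.hW _).2 (T.τ_mem.2 (gl_ne.2 hz))⟩, (F.eq _ z).2 ⟨hz, rfl⟩⟩

theorem OX.cyf (h : OX T v o O) (F : Fl T a b IY Y) (hu : Uni a b) {c : Y → Ext EY} (hc : Ori IY c)
    (hF : Pos IN IY F.ie univ (pm IN IN Subtype.val o) c) :
    Pos (IY.prod 𝓘(ℝ, ℝ)) (𝓡 4) (F.cyf v hu) (univ ×ˢ Jr v a) (pr c oR) O := by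
  have r := pos_R
  refine Pos.dense ((denseRange_fl F).prod dense_univ) (isOpen_univ.prod isOpen_interior) ?_
    (oriOn (ori_pr hc ori_oR) _) (oriOn h.ori univ) (fun p hp => F.ld_cyf hu p.1 hp.2) (mapsTo_univ _ _)
  have k1 := h.ext.comp ((pos_pm h.ex (s := univ) (fun y _ => ld_val F.W y)
    fun y _ => (F.hW _).1 y.2).prodMap r (fun y _ => ld_val F.W y) fun z _ => Glue52.ld_id z)
    (fun _ => ldp (T.ext v)) (fun z _ => ld_prodMap_at (ld_val F.W z.1) (Glue52.ld_id z.2))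
    fun z _ => ⟨(F.hW _).1 z.1.2, trivial⟩
  rw [show T.ext v ∘ Prod.map Subtype.val id = F.cyf v hu ∘ Prod.map F.ie id from
    funext fun z => (F.cyf_ie v hu z.1 z.2).symm] at k1
  refine ((k1.mono (s' := univ ×ˢ Jr v a) fun z _ => ⟨trivial, trivial⟩).of_comp
    ((hF.prodMap r (fun y _ => F.oeE.loc y) fun z _ => Glue52.ld_id z).mono fun z _ => ⟨trivial, trivial⟩)
    (fun z hz => F.ld_cyf hu _ hz.2) fun z _ => ld_prodMap_at (F.oeE.loc z.1) (Glue52.ld_id z.2)).mono ?_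
  rintro ⟨_, x⟩ ⟨h1, ⟨q, rfl⟩, -⟩
  exact ⟨(q, x), ⟨trivial, h1.2⟩, rfl⟩

/-- the filling solid torus has the sign `-dt a b` -/
theorem pos_it (F : Fl T a b IY Y) (hu : Uni a b) (ho : OriOn IN T.Ex o)
    (hτ : Pos IT IN T.τ {z | z.2 ≠ 0} oT o) {c : Y → Ext EY} (hc : Ori IY c)
    (hF : Pos IN IY F.ie univ (pm IN IN Subtype.val o) c) :
    Pos IT IY F.it univ (-(dt a b : ℝ) • oT) c := by
  refine Pos.dense Ext52.dense_Cz isOpen_univ (fun z hz => ?_)
    ((oriOn ori_oT _).smul (neg_ne_zero.2 (dt_ne hu))) (oriOn hc univ) (fun z _ => F.oeT.loc z)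
    (mapsTo_univ _ _)
  classical
  have z0 : z.2 ≠ 0 := hz.2
  let g : Circle × ℂ → F.W := fun w =>
    if h : w.2 ≠ 0 then ⟨_, (F.hW _).2 (T.τ_mem.2 ((gl_ne (a := a) (b := b)).2 h))⟩
    else ⟨_, (F.hW _).2 (T.τ_mem.2 z0)⟩
  have g1 : ∀ w : Circle × ℂ, w.2 ≠ 0 → (g w : N) = T.τ (gl a b w) := fun w h => by simp [g, h]
  have g2 : ∀ w : Circle × ℂ, w.2 ≠ 0 → IsLocalDiffeomorphAt IT IN ∞ g w := fun w h =>
    ld_codRestrict (Glue52.ld_congr ((ld_gl hu h).comp _ _ (T.ld _))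
      (eventually_of_mem (isOpen_ne2.mem_nhds h) g1))
  have k1 := (hτ.comp (pos_gl hu) (fun y _ => T.ld y) (fun _ h => ld_gl hu h)
    fun _ h => gl_ne.2 h).congr (f' := Subtype.val ∘ g) isOpen_ne2 g1
  have k2 := k1.of_comp_left (pos_pm ho (s := univ) (fun y _ => ld_val F.W y) fun y _ => (F.hW _).1 y.2)
    (fun y _ => ld_val F.W y) g2 (mapsTo_univ _ _)
  exact (hF.comp k2 (fun y _ => F.oeE.loc y) g2 (mapsTo_univ _ _)).congr isOpen_ne2
    (fun w h => ((F.eq _ w).2 ⟨h, (g1 w h).symm⟩).symm) z z0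

end Fl

theorem OX.tiso [CompactSpace N] [SecondCountableTopology N] {W : Type} [NormedAddCommGroup W]
    [NormedSpace ℝ W] [FiniteDimensional ℝ W] {Y : Pc W} [CompactSpace Y.M] [T2Space Y.M]
    [SecondCountableTopology Y.M] [Nonempty Y.M] (h : OX T v o O) (F : Fl T a b Y.I Y.M) (hv : Loc v)
    (hu : Uni a b) {J : Set ℝ} (hJ : IsOpen J) (hJ' : J ⊆ Jr v a) {c : Y.M → Ext Y.E} (hc : Ori Y.I c)
    (hF : Pos IN Y.I F.ie univ (pm IN IN Subtype.val o) c) : TPos (F.tiso hv hu hJ hJ') (pr c oR) O :=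
  (h.cyf F hu hc hF).mono fun _ hp => ⟨trivial, hJ' hp⟩

/-- SIGN in a rod chart -/
theorem OX.rod (h : OX T v o O) (hτ : Pos IT IN T.τ {z | z.2 ≠ 0} oT o) (hu : Uni a b) :
    Pos IR (𝓡 4) (T.rod v hu) (Ur v a) (-(dt a b : ℝ) • pr oT oR) O := by
  have op : IsOpen ({z : Circle × ℂ | z.2 ≠ 0} ×ˢ (univ : Set ℝ)) := isOpen_ne2.prod isOpen_univ
  refine Pos.dense (Ext52.dense_Cz.prod dense_univ) isOpen_Ur (Pos.mono ?_ inter_subset_right)
    ((oriOn (ori_pr ori_oT ori_oR) _).smul (neg_ne_zero.2 (dt_ne hu))) (oriOn h.ori univ)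
    (fun _ => ldp (T.rod v hu)) (mapsTo_univ _ _)
  have l : ∀ z : Circle × ℂ, z.2 ≠ 0 → IsLocalDiffeomorphAt IT IN ∞ (T.τ ∘ gl a b) z :=
    fun z h => (ld_gl hu h).comp _ _ (T.ld _)
  have k1 := (hτ.comp (pos_gl hu) (fun y _ => T.ld y) (fun _ h => ld_gl hu h)
    fun _ h => gl_ne.2 h).prodMap pos_R l fun z _ => Glue52.ld_id z
  rw [pr_smul_left] at k1
  exact (h.ext.comp k1 (fun _ => ldp (T.ext v)) (fun z hz => ld_prodMap_at (l _ hz.1) (Glue52.ld_id z.2))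
    fun z hz => ⟨T.τ_mem.2 (gl_ne.2 hz.1), trivial⟩).congr op fun z hz => T.rod_eq_ext hu hz.1

/-- SIGN in a vertex chart: `-dt a b` times the complex orientation -/
theorem OX.vtx (h : OX T v o O) (hτ : Pos IT IN T.τ {z | z.2 ≠ 0} oT o) (hu : Uni a b) (c : ℝ) :
    Pos IV (𝓡 4) (T.vtx v hu c) (Uv v a b c) (-(dt a b : ℝ) • oV) O := by
  have op : IsOpen (Uv v a b c ∩ {0}ᶜ ×ˢ univ) := isOpen_Uv.inter (isOpen_ne.prod isOpen_univ)
  refine Pos.dense ((dense_compl_singleton 0).prod dense_univ) isOpen_Uv ?_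
    ((oriOn ori_oV _).smul (neg_ne_zero.2 (dt_ne hu))) (oriOn h.ori univ)
    (fun _ => ldp (T.vtx v hu c)) (mapsTo_univ _ _)
  have k1 := ((pos_hR c).smul (neg_ne_zero.2 (dt_ne hu.symm))).mono
    (s' := Uv v a b c ∩ {0}ᶜ ×ˢ univ) fun z hz => hz.2.1
  have k2 := ((h.rod hτ hu.symm).comp k1 (fun _ => ldp (T.rod v hu.symm)) (fun z hz => ld_hR hz.2.1)
    fun z hz => hR_mem hz.1 hz.2.1).congr op fun z hz => T.vtx_eq_R hu hz.1 hz.2.1
  rwa [dt_swap, Int.cast_neg, neg_neg, smul_neg, ← neg_smul] at k2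

/-! ### knots -/

open Ext52 in
/-- the orientation of the rod manifold of a knot -/
def oK (t : Tube) (hv : Loc v) : X (ofTube t) v → Ext E4 := oX hv (oriOn (ori_oS t) _)

theorem oK_spec (t : Ext52.Tube) (hv : Loc v) : OX (ofTube t) v (oS t) (oK t hv) := oX_spec _ _

theorem pos_τ (t : Ext52.Tube) (s : Set (Circle × ℂ)) : Pos IT (𝓡 3) (ofTube t).τ s oT (oS t) :=
  Pos.mono (oS_τ t) (subset_univ s)

theorem pos_ie (t : Ext52.Tube) (σ : FillingData) :
    Pos (𝓡 3) (𝓡 3) (ofFill t σ).ie univ (pm (𝓡 3) (𝓡 3) Subtype.val (oS t)) (oF t σ) := oF_ie t σ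

/-- the filling solid torus is negative -/
theorem oF_it (t : Ext52.Tube) (σ : FillingData) : Pos IT (𝓡 3) (t.it σ) univ (-oT) (oF t σ) := by
  have := pos_it (ofFill t σ) (uni_s σ) (oriOn (ori_oS t) _) (pos_τ t _) (ori_oF t σ) (pos_ie t σ)
  rwa [show dt (sa σ) (sb σ) = 1 from σ.det, Int.cast_one, neg_smul, one_smul] at this

end Crest.Agent.X212.Orx52
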