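import Crest.Agent.X212.Orx52.Pos
import Crest.Agent.X212.Bb31.Defs

/-!
# X212 / Orx52 (helper52): orientations through the surgeries `Sw`, `Op` (`OriSwStmt`, `OriOpStmt`)

* `cy o = dt ∧ o`, `pm_cy`, `Pos.cy`;  `pm_oZ_hol` (holomorphic maps are positive);
* `exists_ori_seam` : extension of an orientation across seams.
-/

set_option autoImplicit false
set_option linter.unusedSectionVars false
set_option linter.style.haveILetI false

open Set Filter Topology Function Module Metric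
open scoped ContDiff Manifold
open Crest.Agent.R208 Crest.Agent.R208.F Crest.Agent.R208.FI Crest.Agent.X212.Dr59 Crest.Agent.X212.Int54
open Crest.Agent.X212.Glue52 Crest.Agent.X212.Bb31
open Crest.Agent.X212.Sep15 (EE IR IC CM End Box slab Sw Op)
open Crest.Agent.X212.Sym24 (pu dt)

noncomputable section

namespace Crest.Agent.X212.Orx52

section gen

variable {E : Type*} [NormedAddCommGroup E] [NormedSpace ℝ E] [FiniteDimensional ℝ E]
  {H : Type*} [TopologicalSpace H] {I : ModelWithCorners ℝ E H} [I.Boundaryless]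
  {M : Type*} [TopologicalSpace M] [ChartedSpace H M] [IsManifold I ∞ M]
  {E' : Type*} [NormedAddCommGroup E'] [NormedSpace ℝ E'] [FiniteDimensional ℝ E']
  {H' : Type*} [TopologicalSpace H'] {J : ModelWithCorners ℝ E' H'} [J.Boundaryless]
  {N : Type*} [TopologicalSpace N] [ChartedSpace H' N] [IsManifold J ∞ N]
  {F : Type*} [NormedAddCommGroup F] [NormedSpace ℝ F] [FiniteDimensional ℝ F]
  {G : Type*} [TopologicalSpace G] {K : ModelWithCorners ℝ F G} [K.Boundaryless]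
  {P : Type*} [TopologicalSpace P] [ChartedSpace G P] [IsManifold K ∞ P]

/-- `dt ∧ o` -/
abbrev cy (o : M → Ext E) : M × ℝ → Ext (E × ℝ) := dt E M * pu o

theorem tp_cy (o : M → Ext E) (z : M × ℝ) : tp (E × ℝ) (cy o z) = Sym24.kap E * tp E (o z.1) :=
  Sym24.tp_dT_up _

variable (I) in
theorem cy_eq (o : M → Ext E) :
    cy o = df (I.prod 𝓘(ℝ, ℝ)) Prod.snd * pm (I.prod 𝓘(ℝ, ℝ)) I Prod.fst o := by
  rw [Sym24.df_snd, Sym24.pm_fst]

theorem ori_cy {o : M → Ext E} (ho : Ori I o) : Ori (I.prod 𝓘(ℝ, ℝ)) (cy o) :=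
  ⟨fun z => cy_eq I o ▸ (smAt_df contMDiffAt_snd).mul ((ho.sm _).pm contMDiffAt_fst), fun z => by
    rw [tp_cy]; exact mul_ne_zero Sym24.kap_ne (ho.ne _)⟩

theorem pm_cy {φ : P → M × ℝ} {y : P} (hφ : MDifferentiableAt K (I.prod 𝓘(ℝ, ℝ)) φ y) (o : M → Ext E) :
    pm K (I.prod 𝓘(ℝ, ℝ)) φ (cy o) y = df K (Prod.snd ∘ φ) y * pm K I (Prod.fst ∘ φ) o y := by
  rw [cy_eq I, pm_mul, Pi.mul_apply, pm_df hφ mdifferentiableAt_snd, pm_comp mdifferentiableAt_fst hφ]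

theorem df_snd_comp {g : ℝ → ℝ} {c : ℝ} {z : N × ℝ} (hg : HasDerivAt g c z.2) :
    df (J.prod 𝓘(ℝ, ℝ)) (g ∘ Prod.snd) z = c • dt E' N z := by
  rw [← pm_df mdifferentiableAt_snd hg.differentiableAt.mdifferentiableAt, pm_apply, mf_snd, df,
    mf_eq_fderiv, hg.hasFDerivAt.fderiv, pb_io, dt, Sym24.dT, ← map_smul]
  refine congrArg io (LinearMap.ext fun v => ?_)
  simp [mul_comm]

theorem Pos.cy {f : N → M} {s : Set N} {a : N → Ext E'} {o : M → Ext E} (h : Pos J I f s a o)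
    (hf : ∀ y ∈ s, IsLocalDiffeomorphAt J I ∞ f y) {g g' : ℝ → ℝ} {t : Set ℝ}
    (hg : ∀ x ∈ t, HasDerivAt g (g' x) x) (h0 : ∀ x ∈ t, 0 < g' x) :
    Pos (J.prod 𝓘(ℝ, ℝ)) (I.prod 𝓘(ℝ, ℝ)) (Prod.map f g) (s ×ˢ t) (cy a) (cy o) := fun z hz => by
  have h1 := (hf _ hz.1).mdifferentiableAt ne0
  rw [pm_cy (h1.prodMap (hg _ hz.2).differentiableAt.mdifferentiableAt),
    show Prod.snd ∘ Prod.map f g = g ∘ Prod.snd from rfl,
    show Prod.fst ∘ Prod.map f g = f ∘ Prod.fst from rfl, df_snd_comp (hg _ hz.2),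
    ← pm_comp h1 mdifferentiableAt_fst, Sym24.pm_fst, smul_mul_assoc, map_smul, ← Pi.mul_apply,
    tp_cy, tp_cy, smul_eq_mul, mul_assoc, mul_mul_mul_comm]
  exact mul_pos (h0 _ hz.2) (mul_pos (mul_self_pos.2 Sym24.kap_ne) (h _ hz.1))

/-- holomorphic maps multiply the area form by `|f'|²` -/
theorem pm_oZ_hol {f : ℂ → ℂ} {c z : ℂ} (hf : HasDerivAt f c z) :
    pm 𝓘(ℝ, ℂ) 𝓘(ℝ, ℂ) f oZ z = Complex.normSq c • oZ z := by
  have h1 : (Complex.reLm ∘ₗ (c • (1 : ℂ →L[ℝ] ℂ) : ℂ →L[ℝ] ℂ) : Dual ℝ ℂ) =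
      c.re • Complex.reLm - c.im • Complex.imLm := LinearMap.ext fun v => by simp
  have h2 : (Complex.imLm ∘ₗ (c • (1 : ℂ →L[ℝ] ℂ) : ℂ →L[ℝ] ℂ) : Dual ℝ ℂ) =
      c.im • Complex.reLm + c.re • Complex.imLm := LinearMap.ext fun v => by simp [add_comm]
  rw [pm_apply, mf_eq_fderiv, hf.complexToReal_fderiv.fderiv, oZ_eq, oZ_eq, map_mul, pb_io, pb_io, h1, h2]
  simp only [map_sub, map_add, map_smul, sub_mul, mul_add, smul_mul_assoc, mul_smul_comm, io_sq,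
    smul_zero, io_anti Complex.imLm Complex.reLm, Complex.normSq_apply]
  module

/-- extension of an orientation across seams -/
theorem exists_ori_seam [T2Space M] [SigmaCompactSpace M] (φ : PartialDiffeomorph J I N M ∞)
    {a : N → Ext E'} (ha : OriOn J φ.source a) {ι : Type*} {q : ι → P → M}
    (hq : ∀ i, IsLocalDiffeomorph K I ∞ (q i)) {b : P → Ext F} (hb : Ori K b)
    (hc : ∀ x ∉ φ.target, ∃ i p, q i p = x) (hD : ∀ i, Dense (q i ⁻¹' φ.target))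
    (h : ∀ i p, q i p ∈ φ.target → ∃ g : P → N, IsLocalDiffeomorphAt K J ∞ g p ∧ g p ∈ φ.source ∧
      q i =ᶠ[𝓝 p] φ ∘ g ∧ Pos K J g {p} b a) :
    Dense φ.target ∧ ∃ O, Ori I O ∧ Dg (finrank ℝ E) univ O ∧ Pos J I φ φ.source a O ∧
      ∀ i, Pos K I (q i) univ b O := by
  have h1 : OriOn I φ.target (pm I J φ.symm a) :=
    φ.toPartialEquiv.image_source_eq_target ▸ OriOn.push φ ha subset_rfl
  have h2 := pos_push φ ha subset_rfl
  have h3 : ∀ i, Pos K I (q i) (q i ⁻¹' φ.target) b (pm I J φ.symm a) := fun i p hp => by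
    obtain ⟨g, k1, k2, k3, k4⟩ := h i p hp
    exact (h2.comp k4 (fun _ => ldp φ) (fun _ e => e ▸ k1) fun _ e => e ▸ k2).congr'
      (fun _ e => e ▸ k3) p rfl
  have h4 : Dense φ.target := fun x => by
    by_cases hx : x ∈ φ.target
    · exact subset_closure hx
    · obtain ⟨i, p, rfl⟩ := hc x hx
      exact map_mem_closure (hq i).contMDiff.continuous (hD i p) fun _ k => k
  obtain ⟨O, k1, k2, k3⟩ := exists_ori_open h4 φ.open_target h1 fun x hx => by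
    obtain ⟨i, p, rfl⟩ := hc x hx
    exact ok_of_same isOpen_univ (fun z _ => hq i z) (oriOn hb _)
      (same_symm ((h3 i).mono inter_subset_right)) trivial
  exact ⟨h4, O, k1, k2, h2.right (fun _ => ldp φ) φ.mapsTo k3, fun i => Pos.dense (hD i) isOpen_univ
    (((h3 i).right (fun z _ => hq i z) (mapsTo_preimage _ _) k3).mono inter_subset_right)
    (oriOn hb _) (oriOn k1 univ) (fun z _ => hq i z) (mapsTo_univ _ _)⟩

end gen

variable {Y Y' : CM 3} {R : CM 2} {b₁ b₂ : R × ℝ → Y} {b₁' b₂' : R × ℝ → Y'}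

theorem mem_slab {b : R × ℝ → Y} (h : Box b) {p : R × ℝ} {s : Set ℝ} : b p ∈ slab b s ↔ p.2 ∈ s :=
  ⟨fun ⟨_, hq, e⟩ => h.inj e ▸ hq.2, fun k => ⟨p, ⟨trivial, k⟩, rfl⟩⟩

theorem off_slab (h : Box b₁) (hd : ∀ p q, b₁ p ≠ b₂ q) {p : R × ℝ} :
    b₁ p ∈ (slab b₁ {0} ∪ slab b₂ {0})ᶜ ↔ p.2 ≠ 0 :=
  ⟨fun k e => k (.inl ((mem_slab h).2 e)), fun k e => e.elim (fun a => k ((mem_slab h).1 a))
    fun ⟨_, _, a⟩ => hd _ _ a.symm⟩

theorem dense_ne : Dense {p : R × ℝ | p.2 ≠ 0} :=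
  (dense_compl_singleton (0 : ℝ)).preimage isOpenMap_snd

theorem sw_src₁ (S : Sw b₁ b₂ b₁' b₂') {p : R × ℝ} : b₁ p ∈ S.φ.source ↔ p.2 ≠ 0 :=
  S.src ▸ off_slab S.o₁ S.dj

theorem sw_src₂ (S : Sw b₁ b₂ b₁' b₂') {p : R × ℝ} : b₂ p ∈ S.φ.source ↔ p.2 ≠ 0 := by
  rw [S.src, union_comm]
  exact off_slab S.o₂ fun p q => (S.dj q p).symm

theorem sw_tgt₁ (S : Sw b₁ b₂ b₁' b₂') {p : R × ℝ} : b₁' p ∈ S.φ.target ↔ p.2 ≠ 0 :=
  S.tgt ▸ off_slab S.o₁' S.dj'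

theorem sw_tgt₂ (S : Sw b₁ b₂ b₁' b₂') {p : R × ℝ} : b₂' p ∈ S.φ.target ↔ p.2 ≠ 0 := by
  rw [S.tgt, union_comm]
  exact off_slab S.o₂' fun p q => (S.dj' q p).symm

theorem sw_cover (S : Sw b₁ b₂ b₁' b₂') (x : Y') (hx : x ∉ S.φ.target) :
    ∃ (i : Bool) (p : R × ℝ), cond i b₁' b₂' p = x := by
  rw [S.tgt, notMem_compl_iff] at hx
  exact hx.elim (fun ⟨p, _, e⟩ => ⟨true, p, e⟩) fun ⟨p, _, e⟩ => ⟨false, p, e⟩

theorem sw_dense (S : Sw b₁ b₂ b₁' b₂') : Dense S.φ.target := fun x => by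
  by_cases hx : x ∈ S.φ.target
  · exact subset_closure hx
  · obtain ⟨_ | _, p, rfl⟩ := sw_cover S x hx
    · exact map_mem_closure S.o₂'.continuous (dense_ne p) fun _ => (sw_tgt₂ S).2
    · exact map_mem_closure S.o₁'.continuous (dense_ne p) fun _ => (sw_tgt₁ S).2

/-- **`ORI*`, three-dimensional part** -/
theorem oriSw : OriSwStmt := by
  intro Y Y' R b₁ b₂ b₁' b₂' S o oR ho hR h₁ h₂
  haveI := sigmaCompact (𝓡 3) Y'
  have lo : ∀ {p : R × ℝ}, p.2 < 0 → ∀ᶠ q in 𝓝 p, q.2 < 0 := fun h =>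
    (isOpen_lt continuous_snd continuous_const).mem_nhds h
  have hi : ∀ {p : R × ℝ}, 0 < p.2 → ∀ᶠ q in 𝓝 p, 0 < q.2 := fun h =>
    (isOpen_lt continuous_const continuous_snd).mem_nhds h
  obtain ⟨-, O, k1, -, k2, k3⟩ := exists_ori_seam S.φ (oriOn ho _) (q := fun i => cond i b₁' b₂')
    (Bool.rec S.o₂'.loc S.o₁'.loc) (ori_cy hR) (sw_cover S)
    (Bool.rec (dense_ne.mono fun _ => (sw_tgt₂ S).2) (dense_ne.mono fun _ => (sw_tgt₁ S).2)) (by
      rintro (_ | _) p hp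
      · have h := (sw_tgt₂ S).1 hp
        rcases h.lt_or_gt with k | k
        · exact ⟨b₂, S.o₂.loc p, (sw_src₂ S).2 h, (lo k).mono fun q a => (S.lo₂ q a).symm,
            Pos.mono h₂ (subset_univ _)⟩
        · exact ⟨b₁, S.o₁.loc p, (sw_src₁ S).2 h, (hi k).mono fun q a => (S.hi₁ q a).symm,
            Pos.mono h₁ (subset_univ _)⟩
      · have h := (sw_tgt₁ S).1 hp
        rcases h.lt_or_gt with k | k
        · exact ⟨b₁, S.o₁.loc p, (sw_src₁ S).2 h, (lo k).mono fun q a => (S.lo₁ q a).symm,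
            Pos.mono h₁ (subset_univ _)⟩
        · exact ⟨b₂, S.o₂.loc p, (sw_src₂ S).2 h, (hi k).mono fun q a => (S.hi₂ q a).symm,
            Pos.mono h₂ (subset_univ _)⟩)
  exact ⟨O, k1, k3 true, k3 false, k2⟩

/-- `(x, z) ↦ ((x, Im z²), Re z²)` -/
def sq0 (p : R × ℂ) : (R × ℝ) × ℝ := ((p.1, (p.2 ^ 2).im), (p.2 ^ 2).re)

theorem sm_sq0 : ContMDiff IC ((IR 2).prod 𝓘(ℝ, ℝ)) ∞ (sq0 : R × ℂ → _) := by
  have h : ContMDiff IC 𝓘(ℝ, ℂ) ∞ fun p : R × ℂ => p.2 ^ 2 :=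
    (contDiff_id.pow 2).contMDiff.comp contMDiff_snd
  exact (contMDiff_fst.prodMk (Complex.imCLM.contDiff.contMDiff.comp h)).prodMk
    (Complex.reCLM.contDiff.contMDiff.comp h)

theorem pos_sq0 {oR : Fm 2 R} (hR : Ori (𝓡 2) oR) :
    Pos IC ((IR 2).prod 𝓘(ℝ, ℝ)) sq0 {p | p.2 ≠ 0} (pr oR oZ) (cy (cy oR)) := by
  refine pos_of_eq (oriOn (ori_pr hR ori_oZ) _) (c := fun p => Complex.normSq (2 * p.2))
    (fun p hp => Complex.normSq_pos.2 (mul_ne_zero two_ne_zero hp)) fun p _ => ?_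
  have h := sm_sq0 p
  have h1 : HasDerivAt (fun z : ℂ => z ^ 2) (2 * p.2) p.2 := by simpa using hasDerivAt_pow 2 p.2
  have h2 : MDifferentiableAt 𝓘(ℝ, ℂ) 𝓘(ℝ, ℂ) (fun z : ℂ => z ^ 2) p.2 :=
    h1.complexToReal_fderiv.differentiableAt.mdifferentiableAt
  have h3 := pm_oZ (I := IC) (g := (fun z : ℂ => z ^ 2) ∘ Prod.snd) (h2.comp p mdifferentiableAt_snd)
  rw [← pm_comp h2 mdifferentiableAt_snd, pm_apply, pm_oZ_hol h1, map_smul, ← pm_apply] at h3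
  rw [pm_cy (h.mdifferentiableAt ne0), pm_cy (φ := Prod.fst ∘ sq0) (h.fst.mdifferentiableAt ne0),
    ← mul_assoc, pr_eq (𝓡 2) 𝓘(ℝ, ℂ), Pi.mul_apply, ← mul_smul_comm, h3]
  exact (Sym24.comm2 (T.isDeg_mul (isDeg_io _) (isDeg_io _)) _).symm

/-- **`ORI*`, four-dimensional part** -/
theorem oriOp : OriOpStmt := by
  intro Y Y' R b₁ b₂ b₁' b₂' S C C' P o o' oR O ho ho' hR hO h₁ h₂ hφ hj
  haveI := sigmaCompact (𝓡 4) C'.X
  have src : ∀ p : Y × ℝ, C.j p ∈ P.i.source ↔ p.1 ∈ S.φ.source ∨ p.2 < 0 := fun p => by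
    rw [P.src, S.src, mem_compl_iff, C.oe.inj.mem_set_image, mem_prod, not_and_or, mem_Ici, not_le]
    rfl
  have tgt : ∀ p, P.e p ∈ P.i.target ↔ p.2.im ≠ 0 := fun p => by
    rw [P.tgt, mem_compl_iff, P.oe.inj.mem_set_image]
    rfl
  have key : ∀ {b : R × ℝ → Y} {p : R × ℂ}, Box b → Cy oR o b → (∀ q, q.2 ≠ 0 → b q ∈ S.φ.source) →
      p.2.im ≠ 0 → P.e =ᶠ[𝓝 p] P.i ∘ C.j ∘ Sep15.sq b → ∃ g : R × ℂ → C.X,
      IsLocalDiffeomorphAt IC (𝓡 4) ∞ g p ∧ g p ∈ P.i.source ∧ P.e =ᶠ[𝓝 p] P.i ∘ g ∧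
      Pos IC (𝓡 4) g {p} (pr oR oZ) O := fun {b p} hb hc hs hp e => by
    have k0 : C.j (Sep15.sq b p) ∈ P.i.source := by
      refine (src _).2 ((em (p.2.re = 0)).symm.imp (fun k => hs _ ?_) fun k => ?_)
      · simpa [sq, mul_comm p.2.im, ← two_mul, hp] using k
      · simp [Sep15.sq, sq, hp, k]
    have k1 := ld_prodMap hb.loc (ld_id (I := 𝓘(ℝ, ℝ)) (M := ℝ))
    have k2 := ld_comp C.oe.loc k1
    have k3 : IsLocalDiffeomorphAt IC _ ∞ sq0 p := ld_of_comp_left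
      ((k2 _).comp _ _ (ldp P.i k0)) (sm_sq0 p).continuousAt (ld_congr (P.oe.loc p) e.symm)
    have k4 := Pos.cy (t := univ) hc (fun y _ => hb.loc y) (fun x _ => hasDerivAt_id x) fun _ _ => one_pos
    rw [univ_prod_univ] at k4
    refine ⟨_, k3.comp _ _ (k2 _), k0, e, Pos.comp (Pos.comp hj k4 (fun y _ => C.oe.loc y)
      (fun y _ => k1 y) (mapsTo_univ _ _)) ((pos_sq0 hR).mono ?_) (fun y _ => k2 y)
      (fun _ a => a ▸ k3) (mapsTo_univ _ _)⟩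
    rintro _ rfl a
    exact hp (a ▸ Complex.zero_im)
  have im : Continuous fun p : R × ℂ => p.2.im := Complex.continuous_im.comp continuous_snd
  obtain ⟨-, O', k1, -, k2, k3⟩ := exists_ori_seam P.i (oriOn hO _) (q := fun _ : Unit => P.e)
    (fun _ => P.oe.loc) (ori_pr hR ori_oZ) (fun x hx => by
      rw [P.tgt, notMem_compl_iff] at hx
      exact hx.elim fun p k => ⟨(), p, k.2⟩)
    (fun _ => (((dense_compl_singleton (0 : ℝ)).preimage Complex.isOpenMap_im).preimage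
      isOpenMap_snd).mono fun p => (tgt p).2) fun _ p hp => by
      have h := (tgt p).1 hp
      rcases h.lt_or_gt with k | k
      · exact key S.o₂ h₂ (fun _ => (sw_src₂ S).2) h
          (eventually_of_mem ((isOpen_lt im continuous_const).mem_nhds k) P.dn)
      · exact key S.o₁ h₁ (fun _ => (sw_src₁ S).2) h
          (eventually_of_mem ((isOpen_lt continuous_const im).mem_nhds k) P.up)
  refine ⟨O', k1, ?_, k2, k3 ()⟩
  have le : IsLocalDiffeomorph 𝓘(ℝ, ℝ) 𝓘(ℝ, ℝ) ∞ Real.exp := fun x =>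
    ld_of_fderiv isOpen_univ trivial Real.contDiff_exp.contDiffOn
      (.unitsEquivAut ℝ (Units.mk0 _ (Real.exp_ne_zero x))) 
      ((Real.hasDerivAt_exp x).hasFDerivAt_equiv (Real.exp_ne_zero x))
  have l1 := ld_prodMap (ld_id (I := 𝓡 3) (M := Y)) le
  have a1 := Pos.cy (t := univ) (pos_id.2 (oriOn ho univ).same) (fun y _ => ld_id (I := 𝓡 3) y)
    (fun x _ => Real.hasDerivAt_exp x) fun x _ => Real.exp_pos x
  have a2 := Pos.cy (t := univ) hφ (fun _ => ldp S.φ) (fun x _ => hasDerivAt_id x) fun _ _ => one_pos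
  have a3 := k2.comp ((Pos.comp hj a1 (fun y _ => C.oe.loc y) (fun y _ => l1 y) (mapsTo_univ _ _)).mono
    (prod_mono (subset_univ S.φ.source) subset_rfl)) (fun _ => ldp P.i)
    (fun y _ => ld_comp C.oe.loc l1 y) fun p hp => (src _).2 (.inl hp.1)
  have a4 := Pos.of_comp (f := C'.j) (g := Prod.map S.φ id) (a3.congr (S.φ.open_source.prod isOpen_univ)
    fun p hp => P.ej p.1 hp.1 p.2) a2 (fun _ _ => C'.oe.loc _)
    fun p hp => ld_prodMap_at (ldp S.φ hp.1) (ld_id _)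
  rw [prodMap_image_prod, S.φ.toPartialEquiv.image_source_eq_target, image_id] at a4
  exact Pos.dense ((sw_dense S).prod dense_univ) isOpen_univ (a4.mono inter_subset_right)
    (oriOn (ori_cy ho') _) (oriOn k1 univ) (fun y _ => C'.oe.loc y) (mapsTo_univ _ _)

end Crest.Agent.X212.Orx52
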