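import Crest.Agent.X212.Int54.Defs
import Crest.Agent.X212.Dr59.Coh
import Crest.Agent.X212.Glue52.More

/-!
# X212 / Orx52 (helper52): existence of orientation forms

* `Ok I D ρ x` : near `x` there is a local orientation form which has the sign of `ρ` on `D`;
* `exists_ori` : `D` dense and `Ok` everywhere give a global orientation form (of pure top degree);
* `Ok.of_ld`, `ok_of_conn` : how to check `Ok`; `exists_ori_ext` (extension over codimension two),
  `exists_ori_desc`, `exists_ori_two` (descent along local diffeomorphisms).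
-/

set_option autoImplicit false
set_option linter.unusedSectionVars false
set_option linter.style.haveILetI false

open Set Filter Topology Function Module
open scoped ContDiff Manifold
open Crest.Agent.R208 Crest.Agent.R208.F Crest.Agent.X212.Dr59 Crest.Agent.X212.Int54
open Crest.Agent.X212.Glue52

noncomputable section

namespace Crest.Agent.X212.Orx52

variable {E : Type*} [NormedAddCommGroup E] [NormedSpace ℝ E] [FiniteDimensional ℝ E]
  {H : Type*} [TopologicalSpace H] {I : ModelWithCorners ℝ E H} [I.Boundaryless]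
  {M : Type*} [TopologicalSpace M] [ChartedSpace H M] [IsManifold I ∞ M]
  {E' : Type*} [NormedAddCommGroup E'] [NormedSpace ℝ E'] [FiniteDimensional ℝ E']
  {H' : Type*} [TopologicalSpace H'] {J : ModelWithCorners ℝ E' H'} [J.Boundaryless]
  {N : Type*} [TopologicalSpace N] [ChartedSpace H' N] [IsManifold J ∞ N]
  {E'' : Type*} [NormedAddCommGroup E''] [NormedSpace ℝ E''] [FiniteDimensional ℝ E'']
  {H'' : Type*} [TopologicalSpace H''] {K : ModelWithCorners ℝ E'' H''} [K.Boundaryless]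
  {P : Type*} [TopologicalSpace P] [ChartedSpace H'' P] [IsManifold K ∞ P]

/-! ### copies of some facts of Int54 without measurable structures -/

theorem contAt_rat {o a : M → Ext E} {x : M} (ho : SmAt I o x) (h0 : tp E (o x) ≠ 0)
    (ha : SmAt I a x) : ContinuousAt (rat o a) x := by
  borelize E M
  exact (contMDiffAt_rat le_rfl ho h0 ha).continuousAt

theorem rk_ld {f : N → M} {y : N} (hf : IsLocalDiffeomorphAt J I ∞ f y) :
    finrank ℝ E = finrank ℝ E' :=
  (show E' ≃L[ℝ] E from hf.mfderivToContinuousLinearEquiv (by simp)).toLinearEquiv.finrank_eq.symm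

theorem jac_ld {f : N → M} {y : N} (hf : IsLocalDiffeomorphAt J I ∞ f y) : jac (mf J I f y) ≠ 0 :=
  jac_ne_zero (E := E') (F := E) (hf.mfderivToContinuousLinearEquiv (by simp))

theorem tp_ld {f : N → M} {y : N} (hf : IsLocalDiffeomorphAt J I ∞ f y) (a : M → Ext E) :
    tp E' (pm J I f a y) = jac (mf J I f y) * tp E (a (f y)) := tp_pb (rk_ld hf) _ _

theorem tp_ld_ne {f : N → M} {y : N} (hf : IsLocalDiffeomorphAt J I ∞ f y) {a : M → Ext E}
    (h : tp E (a (f y)) ≠ 0) : tp E' (pm J I f a y) ≠ 0 := by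
  rw [tp_ld hf]
  exact mul_ne_zero (jac_ld hf) h

theorem ori_pm {o : M → Ext E} (ho : Ori I o) {f : N → M} (hf : IsLocalDiffeomorph J I ∞ f) :
    Ori J (pm J I f o) :=
  ⟨fun y => (ho.sm _).pm (hf y).contMDiffAt, fun y => tp_ld_ne (hf y) (ho.ne _)⟩

theorem ori_neg {o : M → Ext E} (ho : Ori I o) : Ori I (-o) :=
  ⟨fun x => (ho.sm x).neg, fun x => by simpa using ho.ne x⟩

theorem pos_rat {o a : M → Ext E} {x : M} : 0 < rat o a x ↔ 0 < tp E (o x) * tp E (a x) := by
  rw [rat, div_pos_iff, ← mul_pos_iff, mul_comm]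

theorem pos_trans {a b c : ℝ} (h : 0 < a * b) (h' : 0 < b * c) : 0 < a * c := by
  have hb : b ≠ 0 := right_ne_zero_of_mul h.ne'
  have := mul_pos h h'
  rw [show a * b * (b * c) = a * c * (b * b) by ring] at this
  exact (mul_pos_iff_of_pos_right (mul_self_pos.2 hb)).1 this

theorem same_trans {o o' o'' : M → Ext E} {s : Set M} (h : SameOn o o' s) (h' : SameOn o' o'' s) :
    SameOn o o'' s := fun x hx => pos_trans (h x hx) (h' x hx)

theorem same_symm {o o' : M → Ext E} {s : Set M} (h : SameOn o o' s) : SameOn o' o s :=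
  fun x hx => mul_comm (tp E (o x)) _ ▸ h x hx

theorem same_neg {o o' : M → Ext E} {s : Set M} (h : SameOn o o' s) : SameOn (-o) (-o') s :=
  fun x hx => by simpa using h x hx

theorem same_pm {o o' : M → Ext E} {f : N → M} {s : Set N} {t : Set M} (h : SameOn o o' t)
    (hf : ∀ y ∈ s, IsLocalDiffeomorphAt J I ∞ f y) (hs : MapsTo f s t) :
    SameOn (pm J I f o) (pm J I f o') s := fun y hy => by
  rw [tp_ld (hf y hy), tp_ld (hf y hy), mul_mul_mul_comm]
  exact mul_pos (mul_self_pos.2 (jac_ld (hf y hy))) (h _ (hs hy))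

theorem same_of_pm {o o' : M → Ext E} {f : N → M} {s : Set N}
    (hf : ∀ y ∈ s, IsLocalDiffeomorphAt J I ∞ f y) (h : SameOn (pm J I f o) (pm J I f o') s) :
    SameOn o o' (f '' s) := by
  rintro _ ⟨y, hy, rfl⟩
  have := h y hy
  rw [tp_ld (hf y hy), tp_ld (hf y hy), mul_mul_mul_comm] at this
  exact (mul_pos_iff_of_pos_left (mul_self_pos.2 (jac_ld (hf y hy)))).1 this

theorem pm_ld_comp {f : P → N} {g : N → M} (hg : IsLocalDiffeomorph J I ∞ g)
    (hf : IsLocalDiffeomorph K J ∞ f) (a : M → Ext E) : pm K J f (pm J I g a) = pm K I (g ∘ f) a :=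
  funext fun z => pm_comp ((hg _).mdifferentiableAt (by simp)) ((hf z).mdifferentiableAt (by simp))

/-- the sign of two local orientation forms at a point is read on any dense set -/
theorem pos_of_frequently {o a : M → Ext E} {x : M} (ho : SmAt I o x) (h0 : tp E (o x) ≠ 0)
    (ha : SmAt I a x) (h1 : tp E (a x) ≠ 0) (h : ∃ᶠ y in 𝓝 x, 0 < tp E (o y) * tp E (a y)) :
    0 < tp E (o x) * tp E (a x) := by
  rw [← pos_rat]
  refine lt_of_le_of_ne (not_lt.1 fun hn => ?_) (div_ne_zero h1 h0).symm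
  obtain ⟨y, h2, h3⟩ := (h.and_eventually ((contAt_rat ho h0 ha).eventually (gt_mem_nhds hn))).exists
  exact lt_asymm (pos_rat.2 h2) h3

theorem same_of_dense {o o' : M → Ext E} (ho : Ori I o) (ho' : Ori I o') {D : Set M} (hD : Dense D)
    (h : SameOn o o' D) : SameOn o o' univ := fun x _ =>
  pos_of_frequently (ho.sm x) (ho.ne x) (ho'.sm x) (ho'.ne x)
    ((mem_closure_iff_frequently.1 (hD x)).mono h)

theorem same_or {o o' : M → Ext E} {s : Set M} (ho : ∀ x ∈ s, SmAt I o x ∧ tp E (o x) ≠ 0)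
    (ho' : ∀ x ∈ s, SmAt I o' x ∧ tp E (o' x) ≠ 0) (hs : IsPreconnected s) :
    SameOn o o' s ∨ SameOn (-o) o' s := by
  rcases hs.mapsTo_Ioi_or_Iio (f := rat o o') (b := 0)
    (fun x hx => (contAt_rat (ho x hx).1 (ho x hx).2 (ho' x hx).1).continuousWithinAt)
    (fun x hx => div_ne_zero (ho' x hx).2 (ho x hx).2) with h | h
  · exact Or.inl fun x hx => pos_rat.1 (h hx)
  · refine Or.inr fun x hx => pos_rat.1 ?_
    have : rat o o' x < 0 := h hx
    simpa [rat, div_neg] using this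

theorem same_of_pt {o o' : M → Ext E} {s : Set M} (ho : ∀ x ∈ s, SmAt I o x ∧ tp E (o x) ≠ 0)
    (ho' : ∀ x ∈ s, SmAt I o' x ∧ tp E (o' x) ≠ 0) (hs : IsPreconnected s) {x : M} (hx : x ∈ s)
    (h : 0 < tp E (o x) * tp E (o' x)) : SameOn o o' s :=
  (same_or ho ho' hs).resolve_right fun h' => lt_asymm h (by simpa using h' x hx)

theorem ori_model : Ori 𝓘(ℝ, E) fun _ : E => vol0 E :=
  ⟨fun _ => cAt_model.2 contDiffAt_const, fun _ => by rw [tp_vol0]; exact one_ne_zero⟩

/-! ### local to global -/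

variable (I) in
/-- near `x` there is a local orientation form with the sign of `ρ` on `D` -/
def Ok (D : Set M) (ρ : M → ℝ) (x : M) : Prop :=
  ∃ a : M → Ext E, ∀ᶠ y in 𝓝 x, SmAt I a y ∧ tp E (a y) ≠ 0 ∧ (y ∈ D → 0 < tp E (a y) * ρ y)

theorem tp_dp (a : M → Ext E) (x : M) : tp E (dp (finrank ℝ E) a x) = tp E (a x) := by
  rw [tp_apply, tp_apply, dp, T.evA_dpl, if_pos rfl]

theorem exists_ori_univ [T2Space M] [SigmaCompactSpace M] {ρ : M → ℝ} (h : ∀ x, Ok I univ ρ x) :
    ∃ o, Ori I o ∧ Dg (finrank ℝ E) univ o ∧ ∀ x, 0 < tp E (o x) * ρ x := by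
  choose a ha using h
  choose U hU Uo xU using fun x => eventually_nhds_iff.1 (ha x)
  obtain ⟨f, hf⟩ := SmoothPartitionOfUnity.exists_isSubordinate I isClosed_univ U Uo
    fun x _ => mem_iUnion.2 ⟨x, xU x⟩
  let b : M → M → Ext E := fun i => (f i : M → ℝ) • dp (finrank ℝ E) (a i)
  let o : M → Ext E := fun y => (∑ i ∈ f.finsupport y, b i) y
  have pos : ∀ y, 0 < tp E (o y) * ρ y := fun y => by
    simp only [o, Finset.sum_apply, map_sum, Finset.sum_mul]
    refine Finset.sum_pos (fun i hi => ?_) (Finset.nonempty_of_sum_ne_zero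
      ((f.sum_finsupport y (mem_univ y)).trans_ne one_ne_zero))
    have h0 : f i y ≠ 0 := (f.mem_finsupport y).1 hi
    simp only [b, Pi.smul_apply', map_smul, tp_dp, smul_eq_mul, mul_assoc]
    exact mul_pos ((f.nonneg i y).lt_of_ne' h0) ((hU i y (hf i (subset_tsupport _ h0))).2.2 trivial)
  refine ⟨o, ⟨fun x => ?_, fun x => left_ne_zero_of_mul (pos x).ne'⟩, fun x hx => ?_, pos⟩
  · refine (cAt_sum (s := f.fintsupport x) (c := b) fun i hi => ?_).congr ?_
    · exact CAt.fsmul le_rfl ((f i).contMDiff x)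
        ((hU i x (hf i ((f.mem_fintsupport_iff x i).1 hi))).1.dp _)
    · filter_upwards [f.eventually_finsupport_subset x] with y hy
      simp only [o, Finset.sum_apply]
      refine Finset.sum_subset hy fun i _ hi => ?_
      have h0 : f i y = 0 := by simpa using hi
      simp [b, h0]
  · exact dg_sum (fun i _ => Dg.fsmul _ fun y _ => T.isDeg_dpl _ _) x hx

/-- LOCAL TO GLOBAL -/
theorem exists_ori [T2Space M] [SigmaCompactSpace M] {D : Set M} (hD : Dense D) {ρ : M → ℝ}
    (h : ∀ x, Ok I D ρ x) :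
    ∃ o, Ori I o ∧ Dg (finrank ℝ E) univ o ∧ ∀ x ∈ D, 0 < tp E (o x) * ρ x := by
  choose a ha using h
  obtain ⟨o, h1, h2, h3⟩ := exists_ori_univ (I := I) (ρ := fun x => tp E (a x x)) fun x =>
    ⟨a x, (ha x).eventually_nhds.mono fun y hy => ⟨hy.self_of_nhds.1, hy.self_of_nhds.2.1, fun _ =>
      pos_of_frequently hy.self_of_nhds.1 hy.self_of_nhds.2.1 (ha y).self_of_nhds.1
        (ha y).self_of_nhds.2.1 (((mem_closure_iff_frequently.1 (hD y)).and_eventually
          (hy.and (ha y))).mono fun z hz => pos_trans (hz.2.1.2.2 hz.1)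
            (mul_comm (tp E (a y z)) _ ▸ hz.2.2.2.2 hz.1))⟩⟩
  exact ⟨o, h1, h2, fun x hx => pos_trans (h3 x) ((ha x).self_of_nhds.2.2 hx)⟩

theorem eventually_ld {q : N → M} {p : N} (hq : IsLocalDiffeomorphAt J I ∞ q p) :
    ∀ᶠ z in 𝓝 p, IsLocalDiffeomorphAt J I ∞ q z := by
  obtain ⟨φ, h1, h2⟩ := hq
  filter_upwards [φ.open_source.mem_nhds h1] with z hz using ⟨φ, hz, h2⟩

theorem Ok.of_ld {D : Set M} {ρ : M → ℝ} {q : N → M} {p : N} (hq : IsLocalDiffeomorphAt J I ∞ q p)
    (h : Ok J (q ⁻¹' D) (fun z => jac (mf J I q z) * ρ (q z)) p) : Ok I D ρ (q p) := by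
  obtain ⟨a, ha⟩ := h
  have c : Tendsto hq.localInverse (𝓝 (q p)) (𝓝 p) := by
    have := hq.localInverse_contMDiffAt.continuousAt
    rwa [ContinuousAt, hq.localInverse_left_inv hq.localInverse_mem_target] at this
  refine ⟨pm I J hq.localInverse a, ?_⟩
  filter_upwards [c.eventually (ha.and (eventually_ld hq)),
    eventually_ld hq.localInverse_isLocalDiffeomorphAt,
    hq.localInverse_eventuallyEq_right.eventually_nhds] with y ⟨⟨h1, h2, h3⟩, h4⟩ h5 h6
  have e : q (hq.localInverse y) = y := h6.self_of_nhds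
  refine ⟨h1.pm h5.contMDiffAt, tp_ld_ne h5 h2, fun hy => ?_⟩
  have h7 := h3 (by rwa [mem_preimage, e])
  have h8 := jac_comp (rk_ld h5) (rk_ld h4) (mf J I q (hq.localInverse y)) (mf I J hq.localInverse y)
  rw [← mf_comp (h4.mdifferentiableAt (by simp)) (h5.mdifferentiableAt (by simp)), mf_congr h6, mf_id,
    jac_id] at h8
  rw [e] at h7
  rw [tp_ld h5]
  have h9 := mul_pos (mul_self_pos.2 (jac_ld h5)) h7
  refine h9.trans_eq ?_
  linear_combination (-(jac (mf I J hq.localInverse y) * tp E' (a (hq.localInverse y)) * ρ y)) * h8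

/-- `Ok` through an oriented chart-like map -/
theorem ok_of_same {D : Set M} {a : M → Ext E} {q : N → M} {W : Set N} (hW : IsOpen W)
    (hq : ∀ z ∈ W, IsLocalDiffeomorphAt J I ∞ q z) {o : N → Ext E'}
    (ho : ∀ z ∈ W, SmAt J o z ∧ tp E' (o z) ≠ 0) (h : SameOn o (pm J I q a) (W ∩ q ⁻¹' D)) {p : N}
    (hp : p ∈ W) : Ok I D (fun x => tp E (a x)) (q p) :=
  Ok.of_ld (hq p hp) ⟨o, eventually_of_mem (hW.mem_nhds hp) fun z hz =>
    ⟨(ho z hz).1, (ho z hz).2, fun hz' => (h z ⟨hz, hz'⟩).trans_eq (by rw [tp_ld (hq z hz)])⟩⟩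

/-- no sign has to be computed if the overlap is connected -/
theorem ok_of_conn {D : Set M} {a : M → Ext E} (ha : ∀ x ∈ D, SmAt I a x ∧ tp E (a x) ≠ 0)
    {q : N → M} {W : Set N} (hW : IsOpen W) (hq : ∀ z ∈ W, IsLocalDiffeomorphAt J I ∞ q z)
    {o : N → Ext E'} (ho : ∀ z ∈ W, SmAt J o z ∧ tp E' (o z) ≠ 0)
    (hc : IsPreconnected (W ∩ q ⁻¹' D)) {p : N} (hp : p ∈ W) : Ok I D (fun x => tp E (a x)) (q p) := by
  rcases same_or (o' := pm J I q a) (fun z hz => ho z hz.1) (fun z hz =>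
    ⟨(ha _ hz.2).1.pm (hq z hz.1).contMDiffAt, tp_ld_ne (hq z hz.1) (ha _ hz.2).2⟩) hc with h | h
  · exact ok_of_same hW hq ho h hp
  · exact ok_of_same hW hq (fun z hz => ⟨(ho z hz).1.neg, by simpa using (ho z hz).2⟩) h hp

theorem ok_self {D : Set M} {a : M → Ext E} (ha : ∀ x ∈ D, SmAt I a x ∧ tp E (a x) ≠ 0) {x : M}
    (hx : D ∈ 𝓝 x) : Ok I D (fun x => tp E (a x)) x :=
  ⟨a, eventually_of_mem hx fun y hy => ⟨(ha y hy).1, (ha y hy).2, fun _ => mul_self_pos.2 (ha y hy).2⟩⟩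

/-- extension of an orientation from a dense open set -/
theorem exists_ori_open [T2Space M] [SigmaCompactSpace M] {D : Set M} (hD : Dense D) (hO : IsOpen D)
    {a : M → Ext E} (ha : ∀ x ∈ D, SmAt I a x ∧ tp E (a x) ≠ 0)
    (h : ∀ x ∉ D, Ok I D (fun x => tp E (a x)) x) :
    ∃ o, Ori I o ∧ Dg (finrank ℝ E) univ o ∧ SameOn o a D :=
  exists_ori hD fun x => (em (x ∈ D)).elim (fun hx => ok_self ha (hO.mem_nhds hx)) (h x)

/-! ### push-forward along open embeddings -/

section push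

variable {e : N → M} {g : M → N} {u : N}

theorem ld_inv (he : IsLocalDiffeomorphAt J I ∞ e u) (hg : g ∘ e =ᶠ[𝓝 u] id) :
    IsLocalDiffeomorphAt I J ∞ g (e u) := ld_of_comp he (ld_congr (ld_id u) hg)

theorem pm_pm_inv (he : IsLocalDiffeomorphAt J I ∞ e u) (hg : g ∘ e =ᶠ[𝓝 u] id) (o : N → Ext E') :
    pm J I e (pm I J g o) u = o u := by
  rw [pm_comp ((ld_inv he hg).mdifferentiableAt (by simp)) (he.mdifferentiableAt (by simp)),
    pm_of_eventually_id hg]

theorem push_ok (he : IsLocalDiffeomorphAt J I ∞ e u) (hg : g ∘ e =ᶠ[𝓝 u] id) {o : N → Ext E'}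
    (ho : SmAt J o u ∧ tp E' (o u) ≠ 0) :
    SmAt I (pm I J g o) (e u) ∧ tp E (pm I J g o (e u)) ≠ 0 := by
  have e0 : g (e u) = u := hg.self_of_nhds
  exact ⟨SmAt.pm (ld_inv he hg).contMDiffAt (e0.symm ▸ ho.1), tp_ld_ne (ld_inv he hg) (e0.symm ▸ ho.2)⟩

end push

/-- EXTENSION OVER CODIMENSION TWO: `e` is an open dense oriented piece, the rest is covered by oriented
pieces `q` which meet `range e` in a connected set -/
theorem exists_ori_ext [T2Space M] [SigmaCompactSpace M] {e : N → M} (he : IsLocalDiffeomorph J I ∞ e)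
    (hi : Injective e) (hd : DenseRange e) {o : N → Ext E'} (ho : Ori J o)
    (h : ∀ a : M → Ext E, (∀ x ∈ range e, SmAt I a x ∧ tp E (a x) ≠ 0) →
      ∀ x ∉ range e, Ok I (range e) (fun x => tp E (a x)) x) :
    ∃ O, Ori I O ∧ Dg (finrank ℝ E) univ O ∧ SameOn (pm J I e O) o univ := by
  rcases isEmpty_or_nonempty N with hN | hN
  · haveI : IsEmpty M := ⟨fun x => by simpa [range_eq_empty] using hd x⟩
    exact ⟨0, ⟨fun x => isEmptyElim x, fun x => isEmptyElim x⟩, Dg.zero, fun x => isEmptyElim x⟩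
  have hg : ∀ u, invFun e ∘ e =ᶠ[𝓝 u] id := fun u => .of_eq (funext (leftInverse_invFun hi))
  have ha : ∀ x ∈ range e, SmAt I (pm I J (invFun e) o) x ∧ tp E (pm I J (invFun e) o x) ≠ 0 := by
    rintro _ ⟨u, rfl⟩
    exact push_ok (he u) (hg u) ⟨ho.sm u, ho.ne u⟩
  obtain ⟨O, h1, h2, h3⟩ := exists_ori_open hd (ld_isOpenEmbedding he hi).isOpen_range ha (h _ ha)
  refine ⟨O, h1, h2, fun u _ => ?_⟩
  rw [← pm_pm_inv (he u) (hg u) o]
  exact same_pm h3 (s := univ) (fun y _ => he y) (fun y _ => ⟨y, rfl⟩) u trivial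

/-- DESCENT along a family of local diffeomorphisms with one model -/
theorem exists_ori_fam [T2Space M] [SigmaCompactSpace M] {ι : Type*} {Q : ι → Type*}
    [∀ i, TopologicalSpace (Q i)] [∀ i, ChartedSpace H' (Q i)] [∀ i, IsManifold J ∞ (Q i)]
    {q : ∀ i, Q i → M} (hq : ∀ i, IsLocalDiffeomorph J I ∞ (q i)) (hs : ∀ x, ∃ i z, q i z = x)
    {o : ∀ i, Q i → Ext E'} (ho : ∀ i, Ori J (o i))
    (h : ∀ i j a b, q i a = q j b →
      0 < (jac (mf J I (q i) a) * tp E' (o i a)) * (jac (mf J I (q j) b) * tp E' (o j b))) :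
    ∃ O, Ori I O ∧ Dg (finrank ℝ E) univ O ∧ ∀ i, SameOn (pm J I (q i) O) (o i) univ := by
  choose i z hz using hs
  obtain ⟨O, h1, h2, h3⟩ := exists_ori_univ (I := I)
    (ρ := fun x => jac (mf J I (q (i x)) (z x)) * tp E' (o (i x) (z x))) fun x => by
      rw [← hz x]
      refine Ok.of_ld (hq _ _) ⟨o (i x), .of_forall fun a => ⟨(ho _).sm a, (ho _).ne a, fun _ => ?_⟩⟩
      have := h _ _ a _ (hz _).symm
      linarith
  refine ⟨O, h1, h2, fun j a _ => ?_⟩
  have := pos_trans (h3 (q j a)) (h _ _ _ a (hz _))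
  rw [tp_ld (hq j a)]
  linarith

/-- DESCENT along one local diffeomorphism -/
theorem exists_ori_desc [T2Space M] [SigmaCompactSpace M] {q : N → M} (hq : IsLocalDiffeomorph J I ∞ q)
    (hs : Surjective q) {o : N → Ext E'} (ho : Ori J o)
    (h : ∀ a b, q a = q b → 0 < (jac (mf J I q a) * tp E' (o a)) * (jac (mf J I q b) * tp E' (o b))) :
    ∃ O, Ori I O ∧ Dg (finrank ℝ E) univ O ∧ SameOn (pm J I q O) o univ :=
  let ⟨O, h1, h2, h3⟩ := exists_ori_fam (ι := Unit) (Q := fun _ => N) (q := fun _ => q) (fun _ => hq)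
    (fun x => ⟨(), hs x⟩) (fun _ => ho) fun _ _ => h
  ⟨O, h1, h2, h3 ()⟩

/-- the sign condition of the descent follows from an orientation preserving transition map -/
theorem sign_of_trans {q : N → M} {q' : P → M} {T : N → P} {a : N} {o : N → Ext E'} {o' : P → Ext E''}
    (hq' : IsLocalDiffeomorphAt K I ∞ q' (T a)) (hT : IsLocalDiffeomorphAt J K ∞ T a)
    (e : q =ᶠ[𝓝 a] q' ∘ T) (h : 0 < tp E' (pm J K T o' a) * tp E' (o a)) :
    0 < (jac (mf J I q a) * tp E' (o a)) * (jac (mf K I q' (T a)) * tp E'' (o' (T a))) := by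
  rw [mf_congr e, mf_comp (hq'.mdifferentiableAt (by simp)) (hT.mdifferentiableAt (by simp)),
    jac_comp (rk_ld hT) (rk_ld hq')]
  rw [tp_ld hT] at h
  have := mul_pos (mul_self_pos.2 (jac_ld hq')) h
  linarith

/-- DESCENT, two injective pieces with different models -/
theorem exists_ori_two [T2Space M] [SigmaCompactSpace M] {q : N → M} {q' : P → M}
    (hq : IsLocalDiffeomorph J I ∞ q) (hq' : IsLocalDiffeomorph K I ∞ q') (hi : Injective q)
    (hi' : Injective q') (hs : ∀ x, x ∈ range q ∨ x ∈ range q') {o : N → Ext E'} {o' : P → Ext E''}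
    (ho : Ori J o) (ho' : Ori K o')
    (h : ∀ a b, q a = q' b →
      0 < (jac (mf J I q a) * tp E' (o a)) * (jac (mf K I q' b) * tp E'' (o' b))) :
    ∃ O, Ori I O ∧ Dg (finrank ℝ E) univ O ∧ SameOn (pm J I q O) o univ ∧
      SameOn (pm K I q' O) o' univ := by
  let ρ : M → ℝ := extend q (fun a => jac (mf J I q a) * tp E' (o a))
    (extend q' (fun b => jac (mf K I q' b) * tp E'' (o' b)) 0)
  have r1 : ∀ a, 0 < tp E' (o a) * (jac (mf J I q a) * ρ (q a)) := fun a => by
    have := mul_self_pos.2 (mul_ne_zero (jac_ld (hq a)) (ho.ne a))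
    simp only [ρ, hi.extend_apply]
    linarith
  have r2 : ∀ b, 0 < tp E'' (o' b) * (jac (mf K I q' b) * ρ (q' b)) := fun b => by
    by_cases hb : ∃ a, q a = q' b
    · obtain ⟨a, ha⟩ := hb
      have := h a b ha
      simp only [ρ, ← ha, hi.extend_apply]
      linarith
    · have := mul_self_pos.2 (mul_ne_zero (jac_ld (hq' b)) (ho'.ne b))
      simp only [ρ, extend_apply' _ _ _ hb, hi'.extend_apply]
      linarith
  obtain ⟨O, h1, h2, h3⟩ := exists_ori_univ (I := I) (ρ := ρ) fun x => by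
    rcases hs x with ⟨a, rfl⟩ | ⟨b, rfl⟩
    · exact Ok.of_ld (hq a) ⟨o, .of_forall fun a => ⟨ho.sm a, ho.ne a, fun _ => r1 a⟩⟩
    · exact Ok.of_ld (hq' b) ⟨o', .of_forall fun a => ⟨ho'.sm a, ho'.ne a, fun _ => r2 a⟩⟩
  refine ⟨O, h1, h2, fun a _ => ?_, fun b _ => ?_⟩
  · have := pos_trans (h3 (q a)) (show 0 < ρ (q a) * (jac (mf J I q a) * tp E' (o a)) by
      have := r1 a; linarith)
    rw [tp_ld (hq a)]
    linarith
  · have := pos_trans (h3 (q' b)) (show 0 < ρ (q' b) * (jac (mf K I q' b) * tp E'' (o' b)) by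
      have := r2 b; linarith)
    rw [tp_ld (hq' b)]
    linarith

end Crest.Agent.X212.Orx52
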