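import Crest.Agent.X212.Orx52.Pos
import Crest.Agent.X212.Cap52.Main
import Crest.Agent.X212.Sep15.Defs

/-!
# X212 / Orx52 (helper52): oriented surfaces in the format of `Prf6`

* `Rp o a` : the sign `o : Prf6.Or M` represents the orientation form `a`;  `orOf`, `Rp.pm_iff`;
* `Cp R` : the closed surface `R : CM 2` with charts in `ℂ`;  `sf` : the surface of `Prf6`;
  `pm_C_iff`, `pm_R_iff`, `sm_iff` : the dictionary.
-/

set_option autoImplicit false
set_option linter.unusedSectionVars false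

open Set Filter Topology Function
open scoped ContDiff Manifold
open Crest.Agent.R208.F Crest.Agent.X212.Dr59 Crest.Agent.X212.Int54 Crest.Agent.X212.Glue52
open Crest.Agent.X212.Sep15 (EE CM)
open Crest.Agent.X212.Prf6 (IC Pm Sf)

noncomputable section

namespace Crest.Agent.X212.Orx52

section C

variable {M N : Type*} [TopologicalSpace M] [ChartedSpace ℂ M] [IsManifold IC ∞ M]
  [TopologicalSpace N] [ChartedSpace ℂ N] [IsManifold IC ∞ N]

theorem tp_pm_C (f : M → N) (a : N → Ext ℂ) (x : M) :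
    tp ℂ (pm IC IC f a x) = Prf6.dt f x * tp ℂ (a (f x)) := tp_pb_self _ _

theorem tp_oZ (z : ℂ) : tp ℂ (oZ z) = tp ℂ (oZ 0) := by rw [oZ_eq, oZ_eq]

/-- the sign `o` represents the form `a` -/
def Rp (o : Prf6.Or M) (a : M → Ext ℂ) : Prop := ∀ x, 0 < o.s x * (tp ℂ (oZ 0) * tp ℂ (a x))

theorem rp_oC : Rp Prf6.oC oZ := fun z => by
  rw [tp_oZ z, show Prf6.oC.s z = 1 from rfl, one_mul]
  exact mul_self_pos.2 (ori_oZ.ne 0)

/-- the sign of an orientation form -/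
def orOf {a : M → Ext ℂ} (ha : Ori IC a) : Prf6.Or M where
  s x := tp ℂ (oZ 0) * tp ℂ (a x)
  loc x := by
    have h0 := mem_chart_source ℂ x
    have h1 := (oriOn ori_oZ univ).pm (fun y => Prf6.ld_chart x (y := y)) (mapsTo_univ _ _) x h0
    have h2 := (contAt_rat (ha.sm x) (ha.ne x) h1.1).mul (continuousAt_const (y := rat a (pm IC IC
      (chartAt ℂ x) oZ) x))
    filter_upwards [h2.eventually (lt_mem_nhds (mul_self_pos.2 (div_ne_zero h1.2 (ha.ne x))))] with y h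
    rw [Pi.mul_apply, rat, rat, tp_pm_C, tp_pm_C, Cap52.dt_chart, tp_oZ, tp_oZ (chartAt ℂ x x)] at h
    refine (mul_pos h (mul_pos (mul_self_pos.2 (ha.ne x)) (mul_self_pos.2 (ha.ne y)))).trans_eq ?_
    have := ha.ne x
    have := ha.ne y
    field_simp

theorem rp_orOf {a : M → Ext ℂ} (ha : Ori IC a) : Rp (orOf ha) a :=
  fun x => mul_self_pos.2 (mul_ne_zero (ori_oZ.ne 0) (ha.ne x))

theorem Rp.pm_iff {o : Prf6.Or M} {o' : Prf6.Or N} {a : M → Ext ℂ} {a' : N → Ext ℂ} (h : Rp o a)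
    (h' : Rp o' a') {f : M → N} {x : M} :
    Pm o o' f x ↔ IsLocalDiffeomorphAt IC IC ∞ f x ∧ Pos IC IC f {x} a a' := by
  refine and_congr_right fun _ => ?_
  simp only [Pos, SameOn, mem_singleton_iff, forall_eq, tp_pm_C]
  have k := mul_pos (h x) (h' (f x))
  have k' := mul_self_pos.2 (ori_oZ.ne 0)
  refine ⟨fun e => ?_, fun e => ?_⟩
  · exact (pos_iff_pos_of_mul_pos ((mul_pos k e).trans_eq (by ring) : 0 < ((o.s x * o'.s (f x)) ^ 2 *
      (tp ℂ (oZ 0) * tp ℂ (oZ 0))) * _)).1 (mul_pos (sq_pos_of_ne_zero (mul_ne_zero (o.ne _) (o'.ne _))) k')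
  · exact (pos_iff_pos_of_mul_pos ((mul_pos k e).trans_eq (by ring) : 0 < ((tp ℂ (a x) * tp ℂ (a' (f x))) ^ 2 *
      (tp ℂ (oZ 0) * tp ℂ (oZ 0))) * _)).1 (mul_pos (sq_pos_of_ne_zero (mul_ne_zero
        (right_ne_zero_of_mul e.ne') (right_ne_zero_of_mul (left_ne_zero_of_mul e.ne')))) k')

end C

/-- the surface with charts in `ℂ` -/
def Cp (R : CM 2) : Type := R.M

variable {R : CM 2}

instance : TopologicalSpace (Cp R) := R.tM
instance : T2Space (Cp R) := R.t2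
instance : CompactSpace (Cp R) := R.cp

variable (R) in
/-- the covering by one piece -/
def cpCov : Cov ℂ (Cp R) Unit where
  P _ := Pc.of (𝓡 2) R Complex.orthonormalBasisOneI.repr.symm.toContinuousLinearEquiv
  f _ := id
  loc _ := (Homeomorph.refl R.M).isLocalHomeomorph
  surj x := ⟨(), x, rfl⟩
  compat _ _ := compat_of_injective injective_id

instance : ChartedSpace ℂ (Cp R) := (cpCov R).cs
instance : IsManifold IC ∞ (Cp R) := (cpCov R).mf

/-- the identity -/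
def toCp (x : R) : Cp R := x

/-- the identity -/
def ofCp (x : Cp R) : R := x

theorem ld_toCp : IsLocalDiffeomorph (𝓡 2) IC ∞ (toCp : R → Cp R) := (cpCov R).ld ()

theorem ld_ofCp : IsLocalDiffeomorph IC (𝓡 2) ∞ (ofCp : Cp R → R) :=
  fun x => ld_of_comp (ld_toCp x) (ld_id (I := 𝓡 2) _)

section dict

variable {E : Type*} [NormedAddCommGroup E] [NormedSpace ℝ E] {H : Type*} [TopologicalSpace H]
  {I : ModelWithCorners ℝ E H} {P : Type*} [TopologicalSpace P] [ChartedSpace H P]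

theorem sm_to {f : P → R} {p : P} :
    ContMDiffAt I IC ∞ (toCp ∘ f) p ↔ ContMDiffAt I (𝓡 2) ∞ f p :=
  ⟨(ld_ofCp _).contMDiffAt.comp p, (ld_toCp _).contMDiffAt.comp p⟩

theorem ld_to {f : P → R} {p : P} :
    IsLocalDiffeomorphAt I IC ∞ (toCp ∘ f) p ↔ IsLocalDiffeomorphAt I (𝓡 2) ∞ f p :=
  ⟨fun h => h.comp _ _ (ld_ofCp _), fun h => h.comp _ _ (ld_toCp _)⟩

theorem ld_of {f : R → P} {x : R} :
    IsLocalDiffeomorphAt IC I ∞ (f ∘ ofCp) (toCp x) ↔ IsLocalDiffeomorphAt (𝓡 2) I ∞ f x :=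
  ⟨(ld_toCp x).comp _ _, (ld_ofCp _).comp _ _⟩

end dict

variable {o : R → Ext (EE 2)}

/-- the orientation form -/
def oCp (o : R → Ext (EE 2)) : Cp R → Ext ℂ := pm IC (𝓡 2) ofCp o

theorem ori_oCp (ho : Ori (𝓡 2) o) : Ori IC (oCp o) := ori_pm ho ld_ofCp

theorem pos_ofCp (ho : Ori (𝓡 2) o) : Pos IC (𝓡 2) ofCp univ (oCp o) o :=
  pos_pm (oriOn ho univ) (fun _ _ => ld_ofCp _) (mapsTo_univ _ _)

theorem pos_toCp (ho : Ori (𝓡 2) o) : Pos (𝓡 2) IC toCp univ o (oCp o) :=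
  Pos.of_comp_left (f := ofCp) (pos_id.2 (oriOn ho univ).same) (pos_ofCp ho) (fun _ _ => ld_ofCp _)
    (fun _ _ => ld_toCp _) (mapsTo_univ _ _)

/-- the surface of `Prf6` -/
def sf [Nonempty R] (ho : Ori (𝓡 2) o) : Sf :=
  { R := Cp R, ne := ‹Nonempty R›, o := orOf (ori_oCp ho) }

theorem pm_C_iff (ho : Ori (𝓡 2) o) {A : ℂ → R} {z : ℂ} : Pm Prf6.oC (orOf (ori_oCp ho)) (toCp ∘ A) z ↔
    IsLocalDiffeomorphAt IC (𝓡 2) ∞ A z ∧ Pos IC (𝓡 2) A {z} oZ o := by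
  rw [rp_oC.pm_iff (rp_orOf _), ld_to]
  refine and_congr_right fun h => ⟨fun k => ?_, fun k => ?_⟩
  · exact (pos_ofCp ho).comp k (fun _ _ => ld_ofCp _) (fun _ e => e ▸ ld_to.2 h) (mapsTo_univ _ _)
  · exact (pos_toCp ho).comp k (fun _ _ => ld_toCp _) (fun _ e => e ▸ h) (mapsTo_univ _ _)

theorem pm_R_iff (ho : Ori (𝓡 2) o) {f : R → R} {x : R} :
    Pm (orOf (ori_oCp ho)) (orOf (ori_oCp ho)) (toCp ∘ f ∘ ofCp) (toCp x) ↔
      IsLocalDiffeomorphAt (𝓡 2) (𝓡 2) ∞ f x ∧ Pos (𝓡 2) (𝓡 2) f {x} o o := by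
  rw [(rp_orOf _).pm_iff (rp_orOf _), ld_to, ld_of]
  refine and_congr_right fun h => ⟨fun k => ?_, fun k => ?_⟩
  · have h1 := ld_to.2 (ld_of.2 h)
    exact ((pos_ofCp ho).comp k (fun _ _ => ld_ofCp _) (fun _ e => e ▸ h1) (mapsTo_univ _ _)).comp
      ((pos_toCp ho).mono (subset_univ {x})) (fun _ e => e ▸ ld_of.2 h) (fun _ _ => ld_toCp _)
      fun _ e => e
  · exact (pos_toCp ho).comp (k.comp ((pos_ofCp ho).mono (subset_univ {toCp x})) (fun _ e => e ▸ h)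
      (fun _ _ => ld_ofCp _) fun _ e => e) (fun _ _ => ld_toCp _) (fun _ e => e ▸ ld_of.2 h)
      (mapsTo_univ _ _)

end Crest.Agent.X212.Orx52
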