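import Crest.Agent.X212.Orx52.Exp
import Crest.Agent.X212.Prf6.All

/-!
# X212 / Orx52 (helper52): the three exports of `H7/K`, without hypotheses
-/

namespace Crest.Agent.X212.Orx52

theorem perf0 : H7.PerfStmt := perfStmt Prf6.perf

theorem coc0 : H7.CocStmt := cocStmt (Mcg32.surg Tub3.tub)

end Crest.Agent.X212.Orx52
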