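import Crest.Agent.X212.Orx52.Orb
import Crest.Agent.X212.Coc52.Coc
import Crest.Agent.X212.H7.K

/-!
# X212 / Orx52 (helper52): `PerfStmt`, `CocStmt`, `HdStmt` of `H7/K` from the surfaces of `Prf6`
-/

set_option autoImplicit false
set_option linter.unusedSectionVars false
set_option linter.style.haveILetI false

open Set Filter Topology Function
open scoped ContDiff Manifold
open Crest.Agent.R208.F Crest.Agent.X212.Dr59 Crest.Agent.X212.Int54 Crest.Agent.X212.Glue52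
open Crest.Agent.X212.Sep15 (EE CM)
open Crest.Agent.X212.Bb31 (Fm Df)
open Crest.Agent.X212.Prf6 (IC G K)
open Crest.Agent.X212.H7 (KK)

noncomputable section

namespace Crest.Agent.X212.Orx52

variable {R : CM 2} {o : Fm 2 R} (ho : Ori (𝓡 2) o)
include ho

theorem an_iff {A : ℂ → R} : Prf6.An (orOf (ori_oCp ho)) (toCp ∘ A) ↔ H7.An o A :=
  ⟨fun h => ⟨fun z => ((pm_C_iff ho).1 (h.1 z)).1, fun z _ => ((pm_C_iff ho).1 (h.1 z)).2 z rfl, h.2⟩,
    fun h => ⟨fun z => (pm_C_iff ho).2 ⟨h.ld z, fun _ e => h.pos _ trivial⟩, h.per⟩⟩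

theorem mem_G {h : Df R} (hp : Bb31.Pos o h) :
    (h.toEquiv : Equiv.Perm (Cp R)) ∈ G (orOf (ori_oCp ho)) :=
  fun x => (pm_R_iff ho (f := h) (x := ofCp x)).2 ⟨h.isLocalDiffeomorph _, fun _ _ => hp _ trivial⟩

/-- a positive diffeomorphism of `Cp R` as a diffeomorphism of `R` -/
def dfOf {g : Equiv.Perm (Cp R)} (hg : g ∈ G (orOf (ori_oCp ho))) : Df R where
  toEquiv := g
  contMDiff_toFun x := ((pm_R_iff ho (f := g) (x := x)).1 (hg x)).1.contMDiffAt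
  contMDiff_invFun x :=
    ((pm_R_iff ho (f := (g⁻¹ : Equiv.Perm (Cp R))) (x := x)).1 (inv_mem hg x)).1.contMDiffAt

theorem pos_dfOf {g : Equiv.Perm (Cp R)} (hg : g ∈ G (orOf (ori_oCp ho))) : Bb31.Pos o (dfOf ho hg) :=
  fun x _ => ((pm_R_iff ho (f := g) (x := x)).1 (hg x)).2 x rfl

theorem sm_iso {φ : ℝ → Equiv.Perm (Cp R)} (h : Prf6.Iso (orOf (ori_oCp ho)) φ) :
    ContMDiff (𝓘(ℝ, ℝ).prod (𝓡 2)) (𝓡 2) ∞ fun p : ℝ × R => ofCp (φ p.1 (toCp p.2)) :=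
  ld_ofCp.contMDiff.comp (h.sm.comp (contMDiff_id.prodMap ld_toCp.contMDiff))

theorem kk_of {k : Equiv.Perm (Cp R)} (hk : k ∈ K (orOf (ori_oCp ho))) :
    ∃ h : Df R, KK o h ∧ ∀ x, h x = ofCp (k (toCp x)) := by
  induction hk using Subgroup.closure_induction with
  | mem f hf =>
    rcases hf with ⟨a, ha, b, hb, rfl⟩ | ⟨φ, hφ, rfl⟩
    · exact ⟨dfOf ho (mul_mem (mul_mem (mul_mem ha hb) (inv_mem ha)) (inv_mem hb)),
        .comm (dfOf ho (inv_mem ha)) (dfOf ho hb) (pos_dfOf ho _) (pos_dfOf ho _) fun _ => rfl,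
        fun _ => rfl⟩
    · exact ⟨dfOf ho (hφ.mem 1), .iso (fun t => dfOf ho (hφ.mem t)) ⟨sm_iso ho hφ, sm_iso ho hφ.inv,
        fun x => congrArg (fun g : Equiv.Perm (Cp R) => g x) hφ.zero⟩ fun _ => rfl, fun _ => rfl⟩
  | one => exact ⟨_, KK.refl o, fun _ => rfl⟩
  | mul f g _ _ a b =>
    obtain ⟨f', a1, a2⟩ := a
    obtain ⟨g', b1, b2⟩ := b
    exact ⟨g'.trans f', .mul a1 b1 fun _ => rfl, fun x => (a2 _).trans (congrArg f (b2 x))⟩
  | inv f _ a =>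
    obtain ⟨f', a1, a2⟩ := a
    refine ⟨f'.symm, a1.symm, fun x => f'.injective ?_⟩
    exact (f'.apply_symm_apply x).trans ((a2 _).trans (f.apply_symm_apply x)).symm

omit ho

theorem perfStmt (h : Prf6.Perf) : H7.PerfStmt := by
  rintro R o ho ⟨A, h1, h2, h3⟩ f hf
  haveI : Nonempty R := ⟨A 0 0⟩
  obtain ⟨g, a, b⟩ := kk_of ho (h (sf ho) ⟨fun i => toCp ∘ A i, fun i => (an_iff ho).2 (h1 i), h2, h3⟩
    (mem_G ho hf))
  exact a.congr fun x => (b x).symm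

theorem cocStmt (su : Prf6.Surg) : H7.CocStmt := by
  intro R o A B ho _ hA hB nA nB
  haveI : Nonempty R := ⟨A 0⟩
  obtain ⟨k, k1, -, δ, h0, k2⟩ := Coc52.coc (X := sf ho) (U := univ) su isOpen_univ ((an_iff ho).2 hA)
    ((an_iff ho).2 hB) (subset_univ _) (subset_univ _) (compl_eq_univ_sdiff _ ▸ nA)
    (compl_eq_univ_sdiff _ ▸ nB)
  obtain ⟨g, a, b⟩ := kk_of ho k1
  exact ⟨g, a, δ, h0, fun z hz => (b _).trans (k2 z hz)⟩

/-- a handle from a normal form -/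
theorem hd_of (ho : Ori (𝓡 2) o) {U : Set (Cp R)} {A B : ℂ → R} {δ : ℝ}
    (N : Prf6.Nf (orOf (ori_oCp ho)) U (toCp ∘ A) (toCp ∘ B) 1 δ (fun _ => 0) (fun _ => 0) fun _ => 1) :
    H7.Hd o A B δ where
  hA := (an_iff ho).1 N.hA
  hB := (an_iff ho).1 N.hB
  pos := N.pos
  small := not_lt.1 fun a => one_ne_zero (N.sept 0 0 1 (by simpa using a)).2
  box z h1 h2 := (by simpa using N.box 0 z h1 h2 : toCp (B z) = toCp (A (Complex.I * z)))
  only z w h1 h2 e := by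
    obtain ⟨-, m, hm⟩ := N.only z w h1 h2 e
    exact ⟨m, by simpa using hm⟩

/-- a handle with the same first chart -/
theorem hd_same (ho : Ori (𝓡 2) o) {U : Set R} {A : ℂ → R} (hU : IsOpen U) (hA : H7.An o A)
    (hc : H7.core A ⊆ U) (cA : IsPreconnected (U \ H7.core A)) :
    ∃ B δ, H7.Hd o A B δ ∧ range B ⊆ U := by
  haveI : Nonempty R := ⟨A 0⟩
  obtain ⟨B, δ, h1, N⟩ := Coc52.hd (X := sf ho) (U := U) hU ((an_iff ho).2 hA) hc cA
  exact ⟨B, δ, hd_of ho N, h1⟩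

theorem hdStmt : H7.HdStmt := by
  intro R o U A ho hU hA hc cA
  haveI : Nonempty R := ⟨A 0⟩
  obtain ⟨A', a1, a2, a3, -⟩ := Tub3.tub (sf ho) _ U 0 Fin.elim0 Fin.elim0
    (Mcg32.cv_core ((an_iff ho).2 hA)) hU hc (fun i => i.elim0) (fun i => i.elim0) fun i => i.elim0
  have e : H7.core A' = H7.core A := congrArg range (funext a3)
  obtain ⟨B, δ, h1, h2⟩ := hd_same ho (A := A') hU ((an_iff ho).1 a1) (e ▸ hc) (e ▸ cA)
  exact ⟨A', B, δ, h1, a3, a2, h2⟩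

end Crest.Agent.X212.Orx52
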